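import Vale.Agent.P255.H370.Main

/-!
# P255, no focal points: the group theoretic obstruction

A group acts on a space with exponential and logarithm maps in which the distance from a point
is convex along geodesics. Busemann functions of axial elements give homomorphisms of the
centralizers, and the configuration of commutators is impossible.
-/

open Filter Topology

noncomputable section

namespace Vale.Agent.N255

open Vale.Agent.P255

/-- exponential and logarithm maps on `X`, invariant under `Γ`, with convex distance -/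
structure GeoAct (Γ X E : Type) [Group Γ] [MulAction Γ X] [NormedAddCommGroup E]
    [NormedSpace ℝ E] where
  ex : X → E → X
  lg : X → X → E
  ip : X → E →L[ℝ] E →L[ℝ] ℝ
  ip_symm : ∀ p v w, ip p v w = ip p w v
  ip_pos : ∀ p v, v ≠ 0 → 0 < ip p v v
  ex_lg : ∀ p q, ex p (lg p q) = q
  lg_ex : ∀ p v, lg p (ex p v) = v
  ex_zero : ∀ p, ex p 0 = p
  ip_inv : ∀ (g : Γ) p, ip (g • p) = ip p
  ex_inv : ∀ (g : Γ) p v, g • ex p v = ex (g • p) v
  shift : ∀ p u (s : ℝ), ∃ w, ip (ex p (s • u)) w w = ip p u u ∧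
    ∀ t : ℝ, ex p ((s + t) • u) = ex (ex p (s • u)) (t • w)
  cmp : ∀ p q r w, (∀ t : ℝ, ex r ((1 + t) • lg r p) = ex p (t • w)) →
    ip r (lg r p) (lg r p) + ip p (lg p q) w ≤
      Real.sqrt (ip r (lg r p) (lg r p)) * Real.sqrt (ip r (lg r q) (lg r q))

namespace GeoAct

variable {Γ X E : Type} [Group Γ] [MulAction Γ X] [NormedAddCommGroup E] [NormedSpace ℝ E]
variable (S : GeoAct Γ X E)

/-- the distance -/
def d (p q : X) : ℝ := Real.sqrt (S.ip p (S.lg p q) (S.lg p q))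

theorem ip_nonneg (p : X) (v : E) : 0 ≤ S.ip p v v := nonneg_of_pos (S.ip_pos p) v

theorem d_nonneg (p q : X) : 0 ≤ S.d p q := Real.sqrt_nonneg _

theorem d_sq (p q : X) : S.d p q ^ 2 = S.ip p (S.lg p q) (S.lg p q) :=
  Real.sq_sqrt (S.ip_nonneg _ _)

theorem lg_self (p : X) : S.lg p p = 0 := by
  have h := S.lg_ex p 0
  rwa [S.ex_zero] at h

theorem d_self (p : X) : S.d p p = 0 := by simp [d, S.lg_self]

theorem eq_zero_of_ip {p : X} {v : E} (h : S.ip p v v ≤ 0) : v = 0 := by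
  by_contra hv
  exact absurd (S.ip_pos p v hv) (not_lt.2 h)

theorem eq_of_d {p q : X} (h : S.d p q = 0) : q = p := by
  have h1 := S.d_sq p q
  rw [h] at h1
  have h2 : S.lg p q = 0 := S.eq_zero_of_ip (p := p) (by rw [← h1]; norm_num)
  rw [← S.ex_lg p q, h2, S.ex_zero]

theorem lg_inv (g : Γ) (p q : X) : S.lg (g • p) (g • q) = S.lg p q := by
  conv_lhs => rw [← S.ex_lg p q, S.ex_inv]
  exact S.lg_ex _ _

theorem d_inv (g : Γ) (p q : X) : S.d (g • p) (g • q) = S.d p q := by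
  unfold d
  rw [S.lg_inv, S.ip_inv]

theorem back (r p : X) : ∃ w, (∀ t : ℝ, S.ex r ((1 + t) • S.lg r p) = S.ex p (t • w)) ∧
    S.lg p r = -w ∧ S.ip p w w = S.ip r (S.lg r p) (S.lg r p) := by
  obtain ⟨w, h1, h2⟩ := S.shift r (S.lg r p) 1
  rw [one_smul, S.ex_lg] at h1 h2
  refine ⟨w, h2, ?_, h1⟩
  have h3 := h2 (-1)
  rw [add_neg_cancel, zero_smul, S.ex_zero] at h3
  conv_lhs => rw [h3]
  rw [S.lg_ex, neg_smul, one_smul]

theorem d_symm (p q : X) : S.d p q = S.d q p := by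
  obtain ⟨w, -, h2, h3⟩ := S.back q p
  unfold d
  rw [h2, ← h3]
  simp

/-- convexity of the distance from `r` along the geodesic from `p` to `q` -/
theorem angle (p q r : X) :
    S.d p r ^ 2 - S.ip p (S.lg p q) (S.lg p r) ≤ S.d p r * S.d q r := by
  obtain ⟨w, h1, h2, -⟩ := S.back r p
  have h := S.cmp p q r w h1
  rw [S.d_symm p r, S.d_symm q r, S.d_sq, h2, map_neg, sub_neg_eq_add]
  exact h

theorem cs (p : X) (v w : E) :
    S.ip p v w ≤ Real.sqrt (S.ip p v v) * Real.sqrt (S.ip p w w) :=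
  cs_form (S.ip p) (S.ip_symm p) (S.ip_nonneg p) v w

theorem tri (p q r : X) : S.d p r ≤ S.d p q + S.d q r := by
  have h1 := S.angle p q r
  have h2 : S.ip p (S.lg p q) (S.lg p r) ≤ S.d p q * S.d p r := S.cs _ _ _
  rcases (S.d_nonneg p r).eq_or_lt with h0 | h0
  · rw [← h0]; exact add_nonneg (S.d_nonneg _ _) (S.d_nonneg _ _)
  · have h3 : S.d p r * S.d p r ≤ S.d p r * (S.d p q + S.d q r) := by nlinarith
    exact le_of_mul_le_mul_left h3 h0

theorem d_ex (p : X) (v : E) (t : ℝ) (ht : 0 ≤ t) :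
    S.d p (S.ex p (t • v)) = t * Real.sqrt (S.ip p v v) := by
  unfold d
  rw [S.lg_ex]
  simp only [map_smul, smul_apply, smul_eq_mul]
  rw [← mul_assoc, Real.sqrt_mul (mul_nonneg ht ht), Real.sqrt_mul_self ht]

/-- points of minimal displacement -/
def IsMin (g : Γ) (y : X) : Prop := ∀ x, S.d y (g • y) ≤ S.d x (g • x)

variable {S}

theorem IsMin.eq {g : Γ} {x y : X} (hx : S.IsMin g x) (hy : S.IsMin g y) :
    S.d x (g • x) = S.d y (g • y) := le_antisymm (hx y) (hy x)

theorem d_inv_smul (g : Γ) (x y : X) : S.d x (g⁻¹ • y) = S.d y (g • x) := by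
  rw [← S.d_inv g, smul_inv_smul, S.d_symm]

theorem IsMin.inv {g : Γ} {x : X} (hx : S.IsMin g x) : S.IsMin g⁻¹ x := fun y => by
  rw [d_inv_smul, d_inv_smul]; exact hx y

theorem IsMin.smul {g h : Γ} {x : X} (hx : S.IsMin g x) (hc : Commute g h) :
    S.IsMin g (h • x) := fun y => by
  rw [smul_smul, hc.eq, mul_smul, S.d_inv]; exact hx y

/-- points of minimal displacement lie on axes -/
theorem IsMin.axis {g : Γ} {x : X} (hx : S.IsMin g x) (t : ℝ) :
    g • S.ex x (t • S.lg x (g • x)) = S.ex x ((1 + t) • S.lg x (g • x)) := by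
  set u := S.lg x (g • x) with hu
  have hgx : S.ex x u = g • x := S.ex_lg _ _
  obtain ⟨w, -, hw2⟩ := S.shift x u 1
  rw [one_smul, hgx] at hw2
  suffices hwu : w = u by rw [hw2, hwu, S.ex_inv]
  obtain ⟨w', h1, h2⟩ := S.shift x u (1 / 2)
  set p := S.ex x ((1 / 2 : ℝ) • u) with hp
  set l := S.d x (g • x) with hl
  have hl' : Real.sqrt (S.ip x u u) = l := rfl
  have hq : g • x = S.ex p ((1 / 2 : ℝ) • w') := by
    rw [← h2, ← hgx]; norm_num
  have hr : g • p = S.ex (g • x) ((1 / 2 : ℝ) • u) := S.ex_inv _ _ _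
  have d1 : S.d p (g • x) = 1 / 2 * l := by
    rw [hq, S.d_ex _ _ _ (by norm_num), h1, hl']
  have d2 : S.d (g • x) (g • p) = 1 / 2 * l := by
    rw [hr, S.d_ex _ _ _ (by norm_num), S.ip_inv, hl']
  have d3 : S.d p (g • p) = l := by
    apply le_antisymm _ (hx p)
    have := S.tri p (g • x) (g • p)
    linarith
  have a1 := S.angle p (g • x) (g • p)
  have l1 : S.lg p (g • x) = (1 / 2 : ℝ) • w' := by rw [hq, S.lg_ex]
  have n1 : S.ip p w' w' = l ^ 2 := by rw [h1, hl, S.d_sq]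
  have n2 := S.d_sq p (g • p)
  rw [d3, d2, l1] at a1
  rw [d3] at n2
  set R := S.lg p (g • p) with hR
  have e1 : R - w' = 0 := by
    apply S.eq_zero_of_ip (p := p)
    simp only [map_sub, sub_apply, map_smul, smul_apply, smul_eq_mul] at a1 ⊢
    rw [S.ip_symm p R w']
    nlinarith
  have e2 : g • p = S.ex p ((1 : ℝ) • w') := by
    rw [one_smul, ← sub_eq_zero.1 e1, hR, S.ex_lg]
  rw [← h2, show (1 / 2 + 1 : ℝ) = 1 + 1 / 2 by norm_num, hw2, hr] at e2
  have e3 := congrArg (S.lg (g • x)) e2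
  rw [S.lg_ex, S.lg_ex] at e3
  exact (smul_right_injective E (by norm_num : (1 / 2 : ℝ) ≠ 0) e3).symm

theorem IsMin.pow_smul {g : Γ} {x : X} (hx : S.IsMin g x) (n : ℕ) :
    g ^ n • x = S.ex x ((n : ℝ) • S.lg x (g • x)) := by
  induction n with
  | zero => simp [S.ex_zero]
  | succ n ih =>
    rw [pow_succ', mul_smul, ih, hx.axis]
    push_cast
    rw [add_comm]

theorem IsMin.lg_pow {g : Γ} {x : X} (hx : S.IsMin g x) (n : ℕ) :
    S.lg x (g ^ n • x) = (n : ℝ) • S.lg x (g • x) := by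
  rw [hx.pow_smul, S.lg_ex]

theorem IsMin.d_pow {g : Γ} {x : X} (hx : S.IsMin g x) (n : ℕ) :
    S.d x (g ^ n • x) = n * S.d x (g • x) := by
  rw [hx.pow_smul, S.d_ex _ _ _ (Nat.cast_nonneg n)]
  rfl

theorem IsMin.lg_inv_smul {g : Γ} {x : X} (hx : S.IsMin g x) :
    S.lg x (g⁻¹ • x) = -S.lg x (g • x) := by
  have h := hx.axis (-1)
  rw [add_neg_cancel, zero_smul, S.ex_zero] at h
  have h2 : g⁻¹ • x = S.ex x ((-1 : ℝ) • S.lg x (g • x)) := by
    rw [inv_smul_eq_iff]; exact h.symm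
  rw [h2, S.lg_ex, neg_smul, one_smul]

variable (S)

/-- the sequence which defines the Busemann function -/
def bseq (g : Γ) (y x : X) (n : ℕ) : ℝ := S.d x (g ^ n • y) - n * S.d y (g • y)

/-- the Busemann function of the orbit of `y` -/
def bus (g : Γ) (y x : X) : ℝ := ⨅ n, S.bseq g y x n

variable {S}

theorem IsMin.bdd {g : Γ} {y : X} (hy : S.IsMin g y) (x : X) :
    BddBelow (Set.range (S.bseq g y x)) := by
  refine ⟨-S.d y x, ?_⟩
  rintro _ ⟨n, rfl⟩
  have h1 := S.tri y x (g ^ n • y)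
  rw [hy.d_pow] at h1
  unfold bseq
  linarith

theorem IsMin.tendsto {g : Γ} {y : X} (hy : S.IsMin g y) (x : X) :
    Tendsto (S.bseq g y x) atTop (𝓝 (S.bus g y x)) := by
  refine tendsto_atTop_ciInf (antitone_nat_of_succ_le fun n => ?_) (hy.bdd x)
  have h1 := S.tri x (g ^ n • y) (g ^ (n + 1) • y)
  rw [pow_succ, mul_smul, S.d_inv, ← mul_smul, ← pow_succ] at h1
  unfold bseq
  push_cast
  linarith

theorem vec_est {B : E →L[ℝ] E →L[ℝ] ℝ} (hs : ∀ v w, B v w = B w v) (hn : ∀ v, 0 ≤ B v v)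
    {a u R : E} {l D δ : ℝ} (hl : 0 < l) (hD : 0 < D) (hu : B u u = l ^ 2) (hR : B R R = D ^ 2)
    (h : D * (l - δ) ≤ B u R) :
    l * B a R ≤ D * (B a u + Real.sqrt (B a a) * Real.sqrt (2 * l * δ)) := by
  have h1 := cs_form B hs hn a (l • R - D • u)
  have h2 : B (l • R - D • u) (l • R - D • u) ≤ D ^ 2 * (2 * l * δ) := by
    simp only [map_sub, sub_apply, map_smul, smul_apply, smul_eq_mul]
    rw [hs R u, hu, hR]
    have := mul_le_mul_of_nonneg_left h (mul_pos hl hD).le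
    nlinarith
  have h3 : Real.sqrt (B (l • R - D • u) (l • R - D • u)) ≤ D * Real.sqrt (2 * l * δ) := by
    refine (Real.sqrt_le_sqrt h2).trans ?_
    rw [Real.sqrt_mul (sq_nonneg D), Real.sqrt_sq hD.le]
  have h4 := mul_le_mul_of_nonneg_left h3 (Real.sqrt_nonneg (B a a))
  have h5 : B a (l • R - D • u) = l * B a R - D * B a u := by
    simp only [map_sub, map_smul, smul_eq_mul]
  rw [h5] at h1
  linarith

theorem IsMin.bus_le {g : Γ} {x y : X} (hx : S.IsMin g x) (hy : S.IsMin g y)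
    (hl : 0 < S.d y (g • y)) :
    S.d y (g • y) * S.bus g y x ≤ S.ip x (S.lg x y) (S.lg x (g • x)) := by
  set l := S.d y (g • y) with hldef
  set a := S.lg x y with ha
  set u := S.lg x (g • x) with hu
  have t0 := hy.tendsto x
  have t1 : Tendsto (fun n => S.bseq g y x (n + 1)) atTop (𝓝 (S.bus g y x)) :=
    t0.comp (tendsto_add_atTop_nat 1)
  have t2 : Tendsto (fun n => S.bseq g y x n - S.bseq g y x (n + 1)) atTop (𝓝 0) := by
    simpa using t0.sub t1
  have t3 : Tendsto (fun n => S.ip x a u + Real.sqrt (S.ip x a a) *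
      Real.sqrt (2 * l * (S.bseq g y x n - S.bseq g y x (n + 1)))) atTop (𝓝 (S.ip x a u)) := by
    have := (((t2.const_mul (2 * l)).sqrt).const_mul (Real.sqrt (S.ip x a a))).const_add
      (S.ip x a u)
    simpa using this
  refine le_of_tendsto_of_tendsto (t1.const_mul l) t3 ?_
  have t4 : Tendsto (fun n : ℕ => (n : ℝ) * l) atTop atTop :=
    tendsto_natCast_atTop_atTop.atTop_mul_const hl
  filter_upwards [t4.eventually_gt_atTop (S.d y x)] with n hn
  have hD : 0 < S.d x (g ^ (n + 1) • y) := by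
    have h1 := S.tri y x (g ^ (n + 1) • y)
    rw [hy.d_pow] at h1
    push_cast at h1
    linarith
  have a1 := S.angle x y (g ^ (n + 1) • y)
  have a2 := S.angle x (g • x) (g ^ (n + 1) • y)
  rw [hy.d_pow] at a1
  have e : S.d (g • x) (g ^ (n + 1) • y) = S.d x (g ^ n • y) := by
    rw [pow_succ', mul_smul, S.d_inv]
  rw [e] at a2
  have hu2 : S.ip x u u = l ^ 2 := by rw [hldef, ← hx.eq hy, S.d_sq]
  have key := vec_est (a := a) (δ := S.bseq g y x n - S.bseq g y x (n + 1)) (S.ip_symm x)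
    (S.ip_nonneg x) hl hD hu2 (S.d_sq x (g ^ (n + 1) • y)).symm (by
      unfold bseq
      push_cast
      nlinarith)
  apply le_of_mul_le_mul_left _ hD
  refine le_trans ?_ key
  have := mul_le_mul_of_nonneg_left a1 hl.le
  unfold bseq
  nlinarith

theorem bus_inv {g : Γ} {x y : X} (hx : S.IsMin g x) (hy : S.IsMin g y) :
    S.bus g⁻¹ y x = S.bus g x y := by
  unfold bus
  congr 1
  funext n
  unfold bseq
  rw [inv_pow, d_inv_smul, d_inv_smul, hx.eq hy]

theorem IsMin.bus_add_le {g : Γ} {x y : X} (hx : S.IsMin g x) (hy : S.IsMin g y)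
    (hl : 0 < S.d y (g • y)) : S.bus g y x + S.bus g x y ≤ 0 := by
  have h1 := hx.bus_le hy hl
  have h2 := hx.inv.bus_le hy.inv (by rwa [d_inv_smul])
  rw [bus_inv hx hy, d_inv_smul, hx.lg_inv_smul, map_neg] at h2
  have h3 : S.d y (g • y) * (S.bus g y x + S.bus g x y) ≤ S.d y (g • y) * 0 := by linarith
  exact le_of_mul_le_mul_left h3 hl

theorem IsMin.bus_tri {g : Γ} {y y' : X} (hy : S.IsMin g y) (hy' : S.IsMin g y') (x : X) :
    S.bus g y x ≤ S.bus g y' x + S.bus g y y' := by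
  refine ge_of_tendsto' ((hy'.tendsto x).add (hy.tendsto y')) fun n => ?_
  refine (ciInf_le (hy.bdd x) (n + n)).trans ?_
  have h1 := S.tri x (g ^ n • y') (g ^ (n + n) • y)
  rw [pow_add, mul_smul, S.d_inv, ← mul_smul, ← pow_add] at h1
  unfold bseq
  rw [hy'.eq hy]
  push_cast
  linarith

/-- elements of the centralizer translate the Busemann function -/
theorem IsMin.bus_smul {g h : Γ} {y : X} (hy : S.IsMin g y) (hl : 0 < S.d y (g • y))
    (hc : Commute g h) (x : X) : S.bus g y (h • x) = S.bus g y x + S.bus g (h⁻¹ • y) y := by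
  have hy' := hy.smul hc.inv_right
  have e : S.bus g y (h • x) = S.bus g (h⁻¹ • y) x := by
    unfold bus
    congr 1
    funext n
    unfold bseq
    rw [hy'.eq hy, ← S.d_inv h x, smul_smul, smul_smul, ← (hc.pow_left n).eq, mul_assoc,
      mul_inv_cancel, mul_one]
  have h1 := hy'.bus_tri hy x
  have h2 := hy.bus_tri hy' x
  have h3 := hy'.bus_add_le hy hl
  rw [e]
  linarith

theorem IsMin.bus_self {g : Γ} {y : X} (hy : S.IsMin g y) (x : X) :
    S.bus g y (g • x) = S.bus g y x - S.d y (g • y) := by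
  refine tendsto_nhds_unique ((hy.tendsto (g • x)).comp (tendsto_add_atTop_nat 1))
    (((hy.tendsto x).sub_const _).congr fun n => ?_)
  simp only [Function.comp, bseq]
  rw [pow_succ', mul_smul, S.d_inv]
  push_cast
  ring

variable (S) in
/-- the translation of the Busemann function of `g` by `c`, times the translation length -/
def ph (g : Γ) (y : X) (c : Γ) : ℝ := S.d y (g • y) * (S.bus g y y - S.bus g y (c • y))

theorem IsMin.ph_eq {g c : Γ} {y : X} (hy : S.IsMin g y) (hc : Commute g c) (x : X) :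
    S.d y (g • y) * (S.bus g y x - S.bus g y (c • x)) = S.ph g y c := by
  unfold ph
  rcases (S.d_nonneg y (g • y)).eq_or_lt with h0 | hl
  · rw [← h0, zero_mul, zero_mul]
  · rw [hy.bus_smul hl hc, hy.bus_smul hl hc]; ring

theorem IsMin.ph_indep {g c : Γ} {y y' : X} (hy : S.IsMin g y) (hy' : S.IsMin g y')
    (hc : Commute g c) : S.ph g y c = S.ph g y' c := by
  rw [← hy'.ph_eq hc y, hy'.eq hy]
  unfold ph
  rcases (S.d_nonneg y (g • y)).eq_or_lt with h0 | hl
  · rw [← h0, zero_mul, zero_mul]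
  · have key : ∀ x, S.bus g y x = S.bus g y' x + S.bus g y y' := by
      intro x
      have h1 := hy.bus_tri hy' x
      have h2 := hy'.bus_tri hy x
      have h3 := hy'.bus_add_le hy hl
      linarith
    rw [key y, key (c • y)]; ring

theorem IsMin.ph_mul {g u v : Γ} {y : X} (hy : S.IsMin g y) (hu : Commute g u) :
    S.ph g y (u * v) = S.ph g y u + S.ph g y v := by
  rw [← hy.ph_eq hu (v • y)]
  unfold ph
  rw [mul_smul]; ring

theorem IsMin.conj {g : Γ} {y : X} (hy : S.IsMin g y) (s : Γ) :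
    S.IsMin (s * g * s⁻¹) (s • y) := fun x => by
  rw [mul_smul, mul_smul, inv_smul_smul, S.d_inv, ← S.d_inv s⁻¹ x, mul_smul, mul_smul,
    inv_smul_smul]
  exact hy _

theorem ph_conj (s g c : Γ) (y : X) :
    S.ph (s * g * s⁻¹) (s • y) (s * c * s⁻¹) = S.ph g y c := by
  have e0 : ∀ a : Γ, (s * a * s⁻¹) • s • y = s • a • y := fun a => by
    rw [mul_smul, mul_smul, inv_smul_smul]
  have e : ∀ x, S.bus (s * g * s⁻¹) (s • y) (s • x) = S.bus g y x := by
    intro x
    unfold bus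
    congr 1
    funext n
    unfold bseq
    rw [conj_pow, e0, e0, S.d_inv, S.d_inv]
  unfold ph
  rw [e0, e0, S.d_inv, e, e]

theorem IsMin.ph_self {g : Γ} {y : X} (hy : S.IsMin g y) : S.ph g y g = S.d y (g • y) ^ 2 := by
  unfold ph
  rw [hy.bus_self]; ring

/-- symmetry of the pairing -/
theorem ph_le {z z' : Γ} {y p : X} (hy : S.IsMin z y) (hp : S.IsMin z' p) (hc : Commute z z') :
    S.ph z' p z ≤ S.ph z y z' := by
  set l' := S.d p (z' • p) with hl'def
  set l := S.d y (z • y) with hldef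
  have b2 : ∀ n : ℕ, l' * S.bus z' p (z ^ n • y) = l' * S.bus z' p y - n * S.ph z' p z := by
    intro n
    induction n with
    | zero => simp
    | succ n ih =>
      have h1 := hp.ph_eq hc.symm (z ^ n • y)
      rw [pow_succ', mul_smul]
      push_cast
      linarith
  have b3 := hy.ph_eq hc (z'⁻¹ • p)
  rw [smul_inv_smul] at b3
  have t1 := (hy.tendsto (z'⁻¹ • p)).sub (hy.tendsto p)
  set u := S.lg p (z' • p) with hu
  have key : ∀ n : ℕ, n * S.ph z' p z ≤ l' * S.bus z' p y + (S.bseq z y p n + n * l) *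
      (S.bseq z y (z'⁻¹ • p) n - S.bseq z y p n) := by
    intro n
    have a1 := S.angle p (z'⁻¹ • p) (z ^ n • y)
    rw [hp.lg_inv_smul, map_neg, neg_apply, ← hu] at a1
    have a2 : -S.ip p u (S.lg p (z ^ n • y)) ≤ l' * S.bus z' p (z ^ n • y) := by
      refine ge_of_tendsto ((hp.tendsto (z ^ n • y)).const_mul l') ?_
      filter_upwards [eventually_gt_atTop 0] with m hm
      have hm' : (0 : ℝ) < m := by exact_mod_cast hm
      have a3 := S.angle p (z ^ n • y) (z' ^ m • p)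
      rw [hp.d_pow, hp.lg_pow, map_smul, smul_eq_mul, S.ip_symm p _ (S.lg p (z' • p)), ← hu,
        ← hl'def] at a3
      apply le_of_mul_le_mul_left _ hm'
      unfold bseq
      rw [← hl'def]
      nlinarith
    rw [b2] at a2
    unfold bseq
    rw [← hldef]
    nlinarith
  have t2 := (tendsto_const_div_atTop_nhds_zero_nat (l' * S.bus z' p y)).add
    ((((hy.tendsto p).div_atTop (tendsto_natCast_atTop_atTop (R := ℝ))).add_const l).mul t1)
  rw [zero_add, zero_add, b3] at t2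
  refine ge_of_tendsto t2 ?_
  filter_upwards [eventually_gt_atTop 0] with n hn
  have hn' : (0 : ℝ) < n := by exact_mod_cast hn
  apply le_of_mul_le_mul_left _ hn'
  refine (key n).trans (le_of_eq ?_)
  field_simp

/-- The displacement of `g` attains its minimum. -/
theorem exists_min [Nonempty X]
    (cocompact : ∀ x : ℕ → X, ∃ (g : ℕ → Γ) (y : X) (φ : ℕ → ℕ), StrictMono φ ∧
      Tendsto (fun n => S.d (g n • x (φ n)) y) atTop (𝓝 0))
    (proper : ∀ (y : X) (R : ℝ), {g : Γ | S.d y (g • y) ≤ R}.Finite) (g : Γ) :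
    ∃ x₀ : X, S.IsMin g x₀ := by
  have tau_le : ∀ x, tau S.d g ≤ S.d x (g • x) := fun x =>
    ciInf_le ⟨0, by rintro _ ⟨x, rfl⟩; exact S.d_nonneg _ _⟩ x
  suffices hs : ∃ x₀ : X, S.d x₀ (g • x₀) = tau S.d g by
    obtain ⟨x₀, h⟩ := hs
    exact ⟨x₀, fun x => h ▸ tau_le x⟩
  have hseq : ∀ n : ℕ, ∃ x : X, S.d x (g • x) < tau S.d g + 1 / ((n : ℝ) + 1) := by
    intro n
    have : tau S.d g < tau S.d g + 1 / ((n : ℝ) + 1) := by
      have : (0 : ℝ) < 1 / ((n : ℝ) + 1) := by positivity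
      linarith
    exact exists_lt_of_ciInf_lt this
  choose x hx using hseq
  obtain ⟨γ, y, φ, hφ, hlim⟩ := cocompact x
  set k : ℕ → Γ := fun n => γ n * g * (γ n)⁻¹ with hk
  have hval : ∀ n, S.d y (k n • y) = S.d ((γ n)⁻¹ • y) (g • (γ n)⁻¹ • y) := by
    intro n
    rw [← S.d_inv (γ n) ((γ n)⁻¹ • y), smul_inv_smul]
    simp only [hk, mul_smul]
  have hge : ∀ n, tau S.d g ≤ S.d y (k n • y) := fun n => by
    rw [hval]; exact tau_le _
  have hle : ∀ n, S.d y (k n • y) ≤
      2 * S.d (γ n • x (φ n)) y + (tau S.d g + 1 / ((φ n : ℝ) + 1)) := by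
    intro n
    have t1 := S.tri y (γ n • x (φ n)) (k n • y)
    have t2 := S.tri (γ n • x (φ n)) (k n • (γ n • x (φ n))) (k n • y)
    rw [S.d_inv] at t2
    have t3 : S.d (γ n • x (φ n)) (k n • (γ n • x (φ n))) = S.d (x (φ n)) (g • x (φ n)) := by
      simp only [hk, mul_smul, inv_smul_smul]
      rw [S.d_inv]
    have t4 := (hx (φ n)).le
    rw [S.d_symm y (γ n • x (φ n))] at t1
    linarith only [t4, t3, t2, t1]
  by_contra hcon
  push Not at hcon
  have hgt : ∀ n, tau S.d g < S.d y (k n • y) := by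
    intro n
    refine lt_of_le_of_ne (hge n) ?_
    intro he
    refine hcon ((γ n)⁻¹ • y) ?_
    rw [← hval, ← he]
  have hub : Tendsto (fun n => 2 * S.d (γ n • x (φ n)) y + (tau S.d g + 1 / ((φ n : ℝ) + 1)))
      atTop (𝓝 (tau S.d g)) := by
    have h1 : Tendsto (fun n => 1 / ((φ n : ℝ) + 1)) atTop (𝓝 0) :=
      tendsto_one_div_add_atTop_nhds_zero_nat.comp hφ.tendsto_atTop
    have h2 := ((hlim.const_mul 2).add ((tendsto_const_nhds (x := tau S.d g)).add h1))
    simpa using h2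
  have hfin := proper y (tau S.d g + 1)
  have hfin2 : {e : Γ | S.d y (e • y) ≤ tau S.d g + 1 ∧ tau S.d g < S.d y (e • y)}.Finite :=
    hfin.subset fun e he => he.1
  obtain ⟨N, hN⟩ :=
    (hub.eventually (gt_mem_nhds (show tau S.d g < tau S.d g + 1 by linarith))).exists
  have hmemN : k N ∈ {e : Γ | S.d y (e • y) ≤ tau S.d g + 1 ∧ tau S.d g < S.d y (e • y)} :=
    ⟨(hle N).trans hN.le, hgt N⟩
  obtain ⟨e, he, hmin⟩ := Set.exists_min_image _ (fun e : Γ => S.d y (e • y)) hfin2 ⟨_, hmemN⟩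
  obtain ⟨M, hM1, hM2⟩ := ((hub.eventually (gt_mem_nhds he.2)).and
    (hub.eventually (gt_mem_nhds (show tau S.d g < tau S.d g + 1 by linarith)))).exists
  have hmemM : k M ∈ {e : Γ | S.d y (e • y) ≤ tau S.d g + 1 ∧ tau S.d g < S.d y (e • y)} :=
    ⟨(hle M).trans hM2.le, hgt M⟩
  have := hmin _ hmemM
  have h5 := hle M
  linarith only [h5, this, hM1]

end GeoAct

/-- a conjugation invariant positive pairing, symmetric and additive on commuting elements -/
structure IsPairing {Γ : Type} [Group Γ] (Q : Γ → Γ → ℝ) : Prop where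
  mul : ∀ {g u v}, Commute g u → Q g (u * v) = Q g u + Q g v
  conj : ∀ s {g c}, Commute g c → Q (s * g * s⁻¹) (s * c * s⁻¹) = Q g c
  comm : ∀ {g c}, Commute g c → Q g c = Q c g
  pos : ∀ {g}, g ≠ 1 → 0 < Q g g
  one : Q 1 1 = 0

theorem GeoAct.exists_pairing {Γ X E : Type} [Group Γ] [MulAction Γ X] [NormedAddCommGroup E]
    [NormedSpace ℝ E] (S : GeoAct Γ X E) (hmin : ∀ g : Γ, ∃ y, S.IsMin g y)
    (hfree : ∀ (g : Γ) (y : X), g • y = y → g = 1) : ∃ Q : Γ → Γ → ℝ, IsPairing Q := by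
  choose y hy using hmin
  refine ⟨fun g c => S.ph g (y g) c, fun hu => (hy _).ph_mul hu, fun s g c hc => ?_,
    fun hc => le_antisymm (GeoAct.ph_le (hy _) (hy _) hc.symm) (GeoAct.ph_le (hy _) (hy _) hc),
    fun {g} hg => ?_, ?_⟩
  · rw [(hy _).ph_indep ((hy g).conj s) (hc.conj s), GeoAct.ph_conj]
  · rw [(hy g).ph_self]
    refine pow_pos (lt_of_le_of_ne (S.d_nonneg _ _) fun h => hg ?_) 2
    exact hfree g _ (S.eq_of_d h.symm)
  · rw [(hy 1).ph_self, one_smul, S.d_self]; norm_num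

end Vale.Agent.N255
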