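import Vale.Agent.P255.H370.Defs
import Mathlib.AlgebraicTopology.FundamentalGroupoid.FundamentalGroup
import Mathlib.GroupTheory.Index
import Mathlib.Topology.Covering.Basic

/-!
# P255: metrics without focal points
-/

open scoped Manifold ContDiff

noncomputable section

namespace Vale.Agent.N255

open Vale.Agent.P255

variable {E : Type} [NormedAddCommGroup E] [NormedSpace ℝ E]
variable {M : Type} [TopologicalSpace M] [ChartedSpace E M]

/-- The velocity vector of the curve `γ` at time `t`. -/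
def velAt (γ : ℝ → M) (t : ℝ) : TangentSpace 𝓘(ℝ, E) (γ t) :=
  mfderiv 𝓘(ℝ, ℝ) 𝓘(ℝ, E) γ t (1 : ℝ)

variable [IsManifold 𝓘(ℝ, E) ∞ M]

/-- No focal points: for every nonzero Jacobi field `J` along a unit-speed geodesic with `J 0 = 0`
and `J` normal to the geodesic, `d/ds |J s|² > 0` for all `s > 0`. -/
def NoFocalPoints (g : RMetric E M) : Prop :=
  ∀ (γ : ℝ → M) (J : ∀ t, TangentSpace 𝓘(ℝ, E) (γ t)), IsGeo g γ → IsJac g γ J →
    (∀ t, innerAt g (γ t) (velAt γ t) (velAt γ t) = 1) → (∃ t, J t ≠ 0) → J 0 = 0 →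
    (∀ t, innerAt g (γ t) (J t) (velAt γ t) = 0) →
    ∀ s : ℝ, 0 < s → 0 < deriv (fun r => innerAt g (γ r) (J r) (J r)) s

variable (E M) in
/-- The manifold `M` carries a smooth Riemannian metric without focal points. -/
def AdmitsNoFocal : Prop := ∃ g : RMetric E M, NoFocalPoints g

end Vale.Agent.N255
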