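import Vale.Agent.N255.Focal
import Vale.Agent.N255.Defs

/-!
# P255, no focal points: the two classical implications, and the comparison of the definitions
-/

open scoped Manifold ContDiff Topology
open Set Filter

set_option maxSynthPendingDepth 3

noncomputable section

namespace Vale.Agent.N255

open Vale.Agent.P255 Vale.Agent.P255.H370

variable {E : Type} [NormedAddCommGroup E] [NormedSpace ℝ E] [FiniteDimensional ℝ E]
variable {M : Type} [TopologicalSpace M] [ChartedSpace E M] [IsManifold 𝓘(ℝ, E) ∞ M]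

section Working

variable {g : Metric E M} {γ : ℝ → M} {J : M → ℝ → E}

omit [IsManifold 𝓘(ℝ, E) ∞ M] in
theorem pos_deriv (h : IsGeodesic g γ) (hJ : IsJacobi g γ J) {t₁ : ℝ}
    (h2 : ∀ t, 0 ≤ deriv (deriv (prodF g γ J J)) t) (h0 : J (γ t₁) t₁ = 0)
    (hne : ∃ t, J (γ t) t ≠ 0) {s : ℝ} (hs : t₁ < s) : 0 < deriv (prodF g γ J J) s := by
  have hd1 : Differentiable ℝ (prodF g γ J J) := fun t =>
    (hJ.deriv_sq h (mem_chart_source E (γ t))).1.differentiableAt
  have hd2 : Differentiable ℝ (deriv (prodF g γ J J)) := fun t =>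
    (hJ.deriv_sq h (mem_chart_source E (γ t))).2.differentiableAt
  have mono := monotone_of_deriv_nonneg hd2 h2
  have z1 : deriv (prodF g γ J J) t₁ = 0 := by
    rw [(hJ.deriv_sq h (mem_chart_source E (γ t₁))).1.deriv, h0, map_zero, mul_zero]
  have z0 : prodF g γ J J t₁ = 0 :=
    (prodF_self_eq_zero hJ.compat' (mem_chart_source E (γ t₁))).2 h0
  by_contra hcon
  push Not at hcon
  obtain ⟨t, ht⟩ := hne
  refine ht (hJ.zero_of_eventually h (t₀ := (t₁ + s) / 2) ?_ _ t (mem_chart_source E _))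
  have anti : AntitoneOn (prodF g γ J J) (Icc t₁ s) := by
    refine antitoneOn_of_deriv_nonpos (convex_Icc _ _) hd1.continuous.continuousOn
      hd1.differentiableOn fun x hx => ?_
    rw [interior_Icc] at hx
    exact (mono hx.2.le).trans hcon
  filter_upwards [Ioo_mem_nhds (show t₁ < (t₁ + s) / 2 by linarith)
    (show (t₁ + s) / 2 < s by linarith)] with x hx
  refine le_antisymm ?_ (prodF_nonneg g γ J x)
  rw [← z0]
  exact anti ⟨le_rfl, hs.le⟩ ⟨hx.1.le, hx.2.le⟩ hx.1.le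

omit [IsManifold 𝓘(ℝ, E) ∞ M] in
theorem noFocal_of_npc (hg : Npc g) : NoFocal g := by
  intro γ J h hJ _ h0 _ hne s hs
  refine pos_deriv h hJ (fun t => ?_) h0 hne hs
  obtain ⟨f'', h3, h4⟩ := hg.second_nonneg h hJ t
  have h5 := (g.isMetricOn' (γ t)).nonneg (cc_mem (mem_chart_source E (γ t)))
    (covD (g.coef (γ t)) (cc γ (γ t)) (J (γ t)) t)
  rw [h3.deriv]
  linarith

omit [FiniteDimensional ℝ E] in
theorem deriv_aff (Y : ℝ → E) (t₁ c t : ℝ) :
    deriv (fun t => Y (t₁ + c * t)) t = c • deriv Y (t₁ + c * t) := by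
  rw [deriv_comp_mul_left c (fun t => Y (t₁ + t)) t, deriv_comp_const_add]

omit [FiniteDimensional ℝ E] in
theorem covD_aff (G : E → E →L[ℝ] E →L[ℝ] ℝ) (x Y : ℝ → E) (t₁ c t : ℝ) :
    covD G (fun t => x (t₁ + c * t)) (fun t => Y (t₁ + c * t)) t =
      c • covD G x Y (t₁ + c * t) := by
  unfold covD
  rw [deriv_aff, deriv_aff, chris_smul_left, smul_add]

omit [IsManifold 𝓘(ℝ, E) ∞ M] in
theorem isJacobi_aff (hJ : IsJacobi g γ J) (t₁ c : ℝ) :
    IsJacobi g (fun t => γ (t₁ + c * t)) (fun a t => J a (t₁ + c * t)) where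
  compat a b t ha hb := hJ.compat a b _ ha hb
  eqn a t ha := by
    obtain ⟨e1, e2, e3⟩ := hJ.eqn a _ ha
    have hφ : DifferentiableAt ℝ (fun t : ℝ => t₁ + c * t) t := by fun_prop
    have e4 : cc (E := E) (fun t => γ (t₁ + c * t)) a = fun t => cc γ a (t₁ + c * t) := rfl
    have e5 : covD (g.coef a) (fun t => cc γ a (t₁ + c * t)) (fun t => J a (t₁ + c * t)) =
        fun t => (fun s => c • covD (g.coef a) (cc γ a) (J a) s) (t₁ + c * t) :=
      funext fun t => covD_aff _ _ _ _ _ _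
    have e6 : covD (g.coef a) (cc γ a) (fun s => c • covD (g.coef a) (cc γ a) (J a) s)
        (t₁ + c * t) = c • covD (g.coef a) (cc γ a) (covD (g.coef a) (cc γ a) (J a))
        (t₁ + c * t) := by
      generalize covD (g.coef a) (cc γ a) (J a) = Z at e2
      unfold covD
      rw [smul_add, ← chris_smul_right, ← deriv_fun_const_smul c e2]
    rw [e4, e5]
    refine ⟨DifferentiableAt.comp (g := J a) t e1 hφ,
      DifferentiableAt.comp (g := fun s => c • covD (g.coef a) (cc γ a) (J a) s) t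
        (e2.const_smul c) hφ, ?_⟩
    have hm := g.isMetricOn' a
    rw [covD_aff (g.coef a) (cc γ a) (fun s => c • covD (g.coef a) (cc γ a) (J a) s), e6,
      deriv_aff, eq_neg_of_add_eq_zero_left e3, hm.curv_eq (cc_mem ha),
      hm.curv_eq (cc_mem ha)]
    simp only [map_smul, smul_apply]
    module

theorem noConj_of_noFocal (hg : NoFocal g) : NoConj g := by
  have key : ∀ (γ : ℝ → M) (J : M → ℝ → E), IsGeodesic g γ → IsJacobi g γ J →
      ∀ t₁ t₂ : ℝ, t₁ < t₂ → J (γ t₁) t₁ = 0 → J (γ t₂) t₂ = 0 → ∀ t, J (γ t) t = 0 := by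
    intro γ J h hJ t₁ t₂ h12 h1 h2
    by_contra hne
    push Not at hne
    have hd1 : Differentiable ℝ (prodF g γ J J) := fun t =>
      (hJ.deriv_sq h (mem_chart_source E (γ t))).1.differentiableAt
    suffices hs : ∀ s, t₁ < s → 0 < deriv (prodF g γ J J) s by
      have mono := strictMonoOn_of_deriv_pos (convex_Ici t₁) hd1.continuous.continuousOn
        (fun s hs' => hs s (by rwa [interior_Ici] at hs'))
      have h3 := mono (mem_Ici.2 le_rfl) (mem_Ici.2 h12.le) h12
      rw [(prodF_self_eq_zero hJ.compat' (mem_chart_source E (γ t₁))).2 h1,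
        (prodF_self_eq_zero hJ.compat' (mem_chart_source E (γ t₂))).2 h2] at h3
      exact lt_irrefl _ h3
    have sp : ∀ t, HasDerivAt (prodF g γ (vel γ) (vel γ)) 0 t := by
      intro t
      have ha := mem_chart_source E (γ t)
      have e := h.eqn _ t (mem_univ _) ha
      have := hasDerivAt_prodF g h.continuous h.vel_compat h.vel_compat ha e.1 e.2.1 e.2.1
      simpa [h.covD_vel ha] using this
    have sp2 := is_const_of_deriv_eq_zero (fun t => (sp t).differentiableAt)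
      (fun t => (sp t).deriv)
    intro s hs
    rcases (prodF_nonneg g γ (vel γ) 0).eq_or_lt with h0 | h0
    · refine pos_deriv h hJ (fun t => ?_) h1 hne hs
      have ha := mem_chart_source E (γ t)
      have hv : deriv (cc (E := E) γ (γ t)) t = 0 :=
        (prodF_self_eq_zero h.vel_compat ha).1 ((sp2 t 0).trans h0.symm)
      have hm := g.isMetricOn' (γ t)
      rw [(hJ.deriv_sq h ha).2.deriv, hv, hm.curv_eq (cc_mem ha)]
      have := hm.nonneg (cc_mem ha) (covD (g.coef (γ t)) (cc γ (γ t)) (J (γ t)) t)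
      simpa using this
    · set σ := Real.sqrt (prodF g γ (vel γ) (vel γ) 0) with hσ
      have hσ0 : 0 < σ := Real.sqrt_pos.2 h0
      have hσ2 : σ * σ = prodF g γ (vel γ) (vel γ) 0 := Real.mul_self_sqrt h0.le
      obtain ⟨α, β, hαβ⟩ := hJ.prod_vel h
      have n0 : ∀ t, J (γ t) t = 0 → α + β * t = 0 := fun t ht => by
        rw [← (hαβ t).1, prodF, ht]; simp
      have hβ : β = 0 := by
        have : β * (t₂ - t₁) = 0 := by linarith [n0 t₁ h1, n0 t₂ h2]
        exact (mul_eq_zero.1 this).resolve_right (sub_pos.2 h12).ne'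
      have hα : α = 0 := by simpa [hβ] using n0 t₁ h1
      have hv : ∀ a t, vel (fun t => γ (t₁ + σ⁻¹ * t)) a t = σ⁻¹ • vel γ a (t₁ + σ⁻¹ * t) :=
        fun a t => deriv_aff (cc (E := E) γ a) t₁ σ⁻¹ t
      have h5 := hg _ _ ((h.comp_add t₁).comp_mul σ⁻¹) (isJacobi_aff hJ t₁ σ⁻¹) (fun t => by
          have := sp2 (t₁ + σ⁻¹ * t) 0
          rw [← hσ2] at this
          unfold prodF at this ⊢
          rw [hv]
          simp only [map_smul, smul_apply, smul_eq_mul]
          erw [this]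
          field_simp) (by simpa using h1) (fun t => by
          have := (hαβ (t₁ + σ⁻¹ * t)).1
          rw [hα, hβ, zero_mul, add_zero] at this
          unfold prodF at this ⊢
          rw [hv]
          simp only [map_smul, smul_eq_mul]
          erw [this]
          exact mul_zero _) (by
          obtain ⟨t, ht⟩ := hne
          refine ⟨σ * (t - t₁), ?_⟩
          have : t₁ + σ⁻¹ * (σ * (t - t₁)) = t := by field_simp; ring
          simpa only [this] using ht) (σ * (s - t₁)) (mul_pos hσ0 (sub_pos.2 hs))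
      have e : t₁ + σ⁻¹ * (σ * (s - t₁)) = s := by field_simp; ring
      have e2 : deriv (fun t => prodF g γ J J (t₁ + σ⁻¹ * t)) (σ * (s - t₁)) =
          σ⁻¹ • deriv (prodF g γ J J) (t₁ + σ⁻¹ * (σ * (s - t₁))) := deriv_aff _ _ _ _
      rw [e] at e2
      have h6 : 0 < σ⁻¹ * deriv (prodF g γ J J) s := lt_of_lt_of_eq h5 e2
      exact (mul_pos_iff_of_pos_left (inv_pos.2 hσ0)).1 h6
  intro γ J h hJ t₁ t₂ h12 h1 h2 a t ha
  have hz : J (γ t) t = 0 := by
    rcases lt_or_gt_of_ne h12 with h3 | h3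
    · exact key γ J h hJ t₁ t₂ h3 h1 h2 t
    · exact key γ J h hJ t₂ t₁ h3 h2 h1 t
  rw [hJ.compat _ a t (mem_chart_source E _) ha, hz, map_zero]

end Working

section Compare

variable {g : Metric E M} {g' : RMetric E M}
  (h : ∀ a, ∀ u ∈ (chartAt E a).target, ∀ v w, coefIn g' a u v w = g.coef a u v w)

omit [FiniteDimensional ℝ E] in
include h in
theorem innerAt_eq (p : M) (v w : TangentSpace 𝓘(ℝ, E) p) :
    innerAt g' p v w = g.coef p (chartAt E p p)
      (mfderiv 𝓘(ℝ, E) 𝓘(ℝ, E) (chartAt E p) p v : E)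
      (mfderiv 𝓘(ℝ, E) 𝓘(ℝ, E) (chartAt E p) p w : E) := by
  have ha := mem_chart_source E p
  have h1 : MDifferentiableAt 𝓘(ℝ, E) 𝓘(ℝ, E) (chartAt E p) p :=
    mdifferentiableAt_atlas (chart_mem_atlas E p) ha
  have h3 : MDifferentiableAt 𝓘(ℝ, E) 𝓘(ℝ, E) (chartAt E p).symm (chartAt E p p) :=
    mdifferentiableAt_atlas_symm (chart_mem_atlas E p) (mem_chart_target E p)
  have h7 : ((chartAt E p).symm ∘ (chartAt E p) : M → M) =ᶠ[𝓝 p] id := by
    filter_upwards [(chartAt E p).open_source.mem_nhds ha] with q hq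
    exact (chartAt E p).left_inv hq
  have h8 := mfderiv_comp p h3 h1
  rw [h7.mfderiv_eq, mfderiv_id] at h8
  have h9 : ∀ x : TangentSpace 𝓘(ℝ, E) p,
      (mfderiv 𝓘(ℝ, E) 𝓘(ℝ, E) (chartAt E p).symm (chartAt E p p)
        (mfderiv 𝓘(ℝ, E) 𝓘(ℝ, E) (chartAt E p) p x) : E) = x :=
    fun x => (congrArg (fun L => L x) h8).symm
  have h10 : ∀ q : M, q = p → ∀ x y : E, innerAt g' q x y = innerAt g' p x y := by
    rintro q rfl x y
    rfl
  refine Eq.trans ?_ (h p _ (mem_chart_target E p) _ _)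
  refine Eq.trans ?_ (h10 _ ((chartAt E p).left_inv ha) _ _).symm
  exact congrArg₂ (innerAt g' p) (h9 v).symm (h9 w).symm

theorem fieldIn_velAt {γ : ℝ → M} (hγ : IsGeodesic g γ) (t : ℝ) :
    fieldIn γ (velAt (E := E) γ) (γ t) t = vel γ (γ t) t := by
  have ha := mem_chart_source E (γ t)
  have h1 := (hγ.eqn _ t (mem_univ _) ha).1
  have h2 : MDifferentiableAt 𝓘(ℝ, ℝ) 𝓘(ℝ, E) γ t := by
    have h3 := (mdifferentiableAt_chart_symm (E := E) (γ t) _ (cc_mem ha)).comp t
      h1.mdifferentiableAt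
    refine h3.congr_of_eventuallyEq ?_
    filter_upwards [eventually_mem_source hγ.continuous.continuousAt ha] with s hs
    exact (symm_cc hs).symm
  have h4 := mfderiv_comp t (mdifferentiableAt_chart (E := E) (γ t) (γ t) ha) h2
  have h5 : mfderiv 𝓘(ℝ, ℝ) 𝓘(ℝ, E) (chartAt E (γ t) ∘ γ) t = fderiv ℝ (cc (E := E) γ (γ t)) t :=
    mfderiv_eq_fderiv
  have h6 := congrArg (fun L => L (1 : ℝ)) (h4.symm.trans h5)
  exact h6

include h

theorem isGeodesic_iff {γ : ℝ → M} : IsGeo g' γ ↔ IsGeodesic g γ := by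
  have hcc : ∀ a, curveIn (E := E) γ a = cc γ a := fun a => rfl
  constructor
  · rintro ⟨hγ0, hγ1⟩
    refine ⟨hγ0.continuousOn, fun a t _ ha => ?_⟩
    obtain ⟨e1, e2, e3⟩ := hγ1 a t ha
    rw [hcc] at e1 e2 e3
    refine ⟨e1, e2, ?_⟩
    rw [covDer_eq (g.isMetricOn a) (h a) (cc_mem ha)] at e3
    exact eq_neg_of_add_eq_zero_left e3
  · intro hγ
    refine ⟨hγ.continuous, fun a t ha => ?_⟩
    obtain ⟨e1, e2, -⟩ := hγ.eqn a t (mem_univ t) ha
    rw [hcc]
    refine ⟨e1, e2, ?_⟩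
    rw [covDer_eq (g.isMetricOn a) (h a) (cc_mem ha)]
    exact hγ.covD_vel ha

theorem isJac_iff {γ : ℝ → M} (hγ0 : Continuous γ) {J' : ∀ t, TangentSpace 𝓘(ℝ, E) (γ t)}
    {J : M → ℝ → E} (hc : Compat γ J) (hJ : ∀ t, fieldIn γ J' (γ t) t = J (γ t) t) :
    IsJac g' γ J' ↔ IsJacobi g γ J := by
  have hcc : ∀ a, curveIn (E := E) γ a = cc γ a := fun a => rfl
  have hf : ∀ a t, γ t ∈ (chartAt E a).source → fieldIn γ J' a t = J a t := by
    intro a t ha
    have e1 := mfderiv_chart_trans (γ t) a (γ t) (mem_chart_source E (γ t)) ha (J' t)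
    rw [hc (γ t) a t (mem_chart_source E (γ t)) ha, ← hJ]
    exact e1
  have hfe : ∀ a t, γ t ∈ (chartAt E a).source → fieldIn γ J' a =ᶠ[𝓝 t] J a := by
    intro a t ha
    filter_upwards [eventually_mem_source hγ0.continuousAt ha] with s hs using hf a s hs
  have hev : ∀ a t, γ t ∈ (chartAt E a).source →
      CovDer (coefIn g' a) (cc γ a) (fieldIn γ J' a) =ᶠ[𝓝 t] covD (g.coef a) (cc γ a) (J a) := by
    intro a t ha
    refine (covDer_eventuallyEq (Y := fieldIn γ J' a) (g.isMetricOn a) (h a)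
      (((chartAt E a).continuousAt ha).comp hγ0.continuousAt) (cc_mem ha)).trans ?_
    filter_upwards [(hfe a t ha).eventually_nhds] with s hs using covD_congr hs
  constructor
  · intro H
    refine ⟨hc, fun a t ha => ?_⟩
    obtain ⟨e1, e2, e3⟩ := H a t ha
    rw [hcc] at e2 e3
    rw [covDer_eq (g.isMetricOn a) (h a) (cc_mem ha), covD_congr (hev a t ha),
      riem_eq (g.isMetricOn a) (h a) (cc_mem ha), hf a t ha] at e3
    exact ⟨(hfe a t ha).differentiableAt_iff.1 e1, (hev a t ha).differentiableAt_iff.1 e2, e3⟩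
  · intro H a t ha
    obtain ⟨e1, e2, e3⟩ := H.eqn a t ha
    rw [hcc]
    refine ⟨(hfe a t ha).differentiableAt_iff.2 e1, (hev a t ha).differentiableAt_iff.2 e2, ?_⟩
    rw [covDer_eq (g.isMetricOn a) (h a) (cc_mem ha), covD_congr (hev a t ha),
      riem_eq (g.isMetricOn a) (h a) (cc_mem ha), hf a t ha]
    exact e3

theorem noFocal_iff : NoFocalPoints g' ↔ NoFocal g := by
  have P : ∀ {γ : ℝ → M} {X' Y' : ∀ t, TangentSpace 𝓘(ℝ, E) (γ t)} {X Y : M → ℝ → E},
      (∀ t, fieldIn γ X' (γ t) t = X (γ t) t) → (∀ t, fieldIn γ Y' (γ t) t = Y (γ t) t) →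
      ∀ t, innerAt g' (γ t) (X' t) (Y' t) = prodF g γ X Y t := by
    intro γ X' Y' X Y hX hY t
    unfold prodF
    rw [← hX, ← hY]
    exact innerAt_eq h _ _ _
  have Z : ∀ {γ : ℝ → M} {X' : ∀ t, TangentSpace 𝓘(ℝ, E) (γ t)} {X : M → ℝ → E},
      (∀ t, fieldIn γ X' (γ t) t = X (γ t) t) → ∀ t, X' t = 0 ↔ X (γ t) t = 0 := by
    intro γ X' X hX t
    rw [← hX]
    refine ⟨fun h0 => ?_, mfderiv_chart_injective _ _ (mem_chart_source E _) _⟩
    unfold fieldIn
    rw [h0]
    exact map_zero _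
  constructor
  · intro H γ J hγ hJ h1 h2 h3 h4 s hs
    choose J' hJ' using fun t : ℝ => exists_vec (γ t) (J (γ t) t)
    have hV := fieldIn_velAt hγ
    have key := H γ J' ((isGeodesic_iff h).2 hγ)
      ((isJac_iff h hγ.continuous hJ.compat' hJ').2 hJ) (fun t => by rw [P hV hV, h1])
      (h4.imp fun t ht => mt (Z hJ' t).1 ht) ((Z hJ' 0).2 h2) (fun t => by rw [P hJ' hV, h3]) s hs
    rwa [funext (P hJ' hJ')] at key
  · intro H γ J' hγ hJ h1 h2 h3 h4 s hs
    have hγ' := (isGeodesic_iff h).1 hγ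
    have hV := fieldIn_velAt hγ'
    have hJ' : ∀ t, fieldIn γ J' (γ t) t = fieldIn γ J' (γ t) t := fun _ => rfl
    rw [funext (P hJ' hJ')]
    exact H γ (fieldIn γ J') hγ' ((isJac_iff h hγ.1
      (fun a b t ha hb => mfderiv_chart_trans a b (γ t) ha hb (J' t)) hJ').1 hJ)
      (fun t => by rw [← P hV hV, h1]) ((Z hJ' 0).1 h3) (fun t => by rw [← P hJ' hV, h4])
      (h2.imp fun t ht => mt (Z hJ' t).2 ht) s hs

end Compare

end Vale.Agent.N255
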