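import Vale.Agent.N255.Axis

/-!
# P255, no focal points: the action of the fundamental group on homotopy classes of paths
-/

open scoped Topology unitInterval
open Set Filter

noncomputable section

namespace Vale.Agent.N255

open Vale.Agent.P255
open Vale.Agent.P255.ExpSys (Cl PX smul_def symm_trans' symm_symm' cancel_mid)

/-- A system of exponential maps which are coverings, with convex radial distance. -/
structure FSys (E M : Type) [NormedAddCommGroup E] [NormedSpace ℝ E]
    [TopologicalSpace M] where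
  e : M → E → M
  ip : M → E →L[ℝ] E →L[ℝ] ℝ
  ip_symm : ∀ m v w, ip m v w = ip m w v
  ip_pos : ∀ m v, v ≠ 0 → 0 < ip m v v
  zero : ∀ m, e m 0 = m
  cov : ∀ m, IsCoveringMap (e m)
  shift : ∀ m u (s : ℝ), ∃ w, ip (e m (s • u)) w w = ip m u u ∧
      ∀ t : ℝ, e m ((s + t) • u) = e (e m (s • u)) (t • w)
  cmp : ∀ m q w w₁ (c : ℝ → E), Continuous c → (∀ t : ℝ, e m (c t) = e q (t • w)) →
    (∀ t : ℝ, e m ((1 + t) • c 0) = e q (t • w₁)) →
    ip m (c 0) (c 0) + ip q w w₁ ≤
      Real.sqrt (ip m (c 0) (c 0)) * Real.sqrt (ip m (c 1) (c 1))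

namespace FSys

variable {E M : Type} [NormedAddCommGroup E] [NormedSpace ℝ E]
variable [TopologicalSpace M] (S : FSys E M)

/-- the zero vector as a lift of the base point -/
def base (y : M) : S.e y ⁻¹' {y} := ⟨0, S.zero y⟩

/-- the initial vector of the geodesic in a homotopy class -/
def vec {y z : M} (α : Cl y z) : E := ((S.cov y).monodromy α (S.base y) : E)

lemma e_vec {y z : M} (α : Cl y z) : S.e y (S.vec α) = z :=
  ((S.cov y).monodromy α (S.base y)).2

/-- the geodesic path with initial vector `v` -/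
def rayTo (y z : M) (v : E) (h : S.e y v = z) : Path y z where
  toFun t := S.e y ((t : ℝ) • v)
  continuous_toFun := by
    have := (S.cov y).continuous
    fun_prop
  source' := by simp [S.zero]
  target' := by simp [h]

@[simp] lemma rayTo_apply (y z : M) (v : E) (h : S.e y v = z) (t : I) :
    S.rayTo y z v h t = S.e y ((t : ℝ) • v) := rfl

/-- Lifting characterization of `vec` for composed classes. -/
lemma vec_trans {m y z : M} (μ : Cl m y) (γ : Path y z) (c : C(I, E)) (h0 : c 0 = S.vec μ)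
    (h : ∀ t, S.e m (c t) = γ t) :
    S.vec (μ.trans (Path.Homotopic.Quotient.mk γ)) = c 1 := by
  have h1 : (S.cov m).monodromy (μ.trans (Path.Homotopic.Quotient.mk γ)) (S.base m) =
      (S.cov m).monodromy (Path.Homotopic.Quotient.mk γ) ((S.cov m).monodromy μ (S.base m)) :=
    (S.cov m).monodromy_trans_apply _ _ _
  have hγ : γ.toContinuousMap 0 = S.e m (((S.cov m).monodromy μ (S.base m)) : E) := by
    have := S.e_vec μ
    rw [vec] at this
    rw [this]; exact γ.source
  have h2 : c = (S.cov m).liftPath γ.toContinuousMap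
      (((S.cov m).monodromy μ (S.base m)) : E) hγ := by
    rw [(S.cov m).eq_liftPath_iff']
    exact ⟨funext h, h0⟩
  unfold vec
  rw [h1]
  conv_rhs => rw [h2]
  rfl

lemma vec_refl (y : M) : S.vec (Path.Homotopic.Quotient.refl y) = 0 := by
  unfold vec
  rw [(S.cov y).monodromy_refl]
  rfl

lemma vec_mk {y z : M} (γ : Path y z) (c : C(I, E)) (h0 : c 0 = 0)
    (h : ∀ t, S.e y (c t) = γ t) :
    S.vec (Path.Homotopic.Quotient.mk γ) = c 1 := by
  have := S.vec_trans (Path.Homotopic.Quotient.refl y) γ c (by rw [h0, S.vec_refl]) h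
  rwa [Path.Homotopic.Quotient.refl_trans] at this

lemma vec_rayTo (y z : M) (v : E) (h : S.e y v = z) :
    S.vec (Path.Homotopic.Quotient.mk (S.rayTo y z v h)) = v := by
  have := S.vec_mk (S.rayTo y z v h) ⟨fun t : I => (t : ℝ) • v, by fun_prop⟩ (by simp)
    (fun t => rfl)
  simpa using this

lemma eq_rayTo {y z : M} (α : Cl y z) :
    α = Path.Homotopic.Quotient.mk (S.rayTo y z (S.vec α) (S.e_vec α)) := by
  induction α using Path.Homotopic.Quotient.ind with
  | mk γ =>
    rw [Path.Homotopic.Quotient.eq]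
    have hγ0 : γ.toContinuousMap 0 = S.e y 0 := by rw [S.zero]; exact γ.source
    set Γ := (S.cov y).liftPath γ.toContinuousMap 0 hγ0 with hΓ
    have hΓ1 : Γ 1 = S.vec (Path.Homotopic.Quotient.mk γ) := rfl
    have hl : ∀ t, S.e y (Γ t) = γ t := fun t =>
      congrFun ((S.cov y).liftPath_lifts γ.toContinuousMap 0 hγ0) t
    let P : Path (0 : E) (Γ 1) := ⟨Γ, (S.cov y).liftPath_zero _ _ _, rfl⟩
    let P' : Path (0 : E) (Γ 1) :=
      { toFun := fun t => (t : ℝ) • Γ 1
        continuous_toFun := by fun_prop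
        source' := by simp
        target' := by simp }
    have hPP : P.Homotopic P' := SimplyConnectedSpace.paths_homotopic P P'
    have h2 := hPP.map ⟨S.e y, (S.cov y).continuous⟩
    have h3 := h2.pathCast (S.zero y).symm (x₃ := z) (by
      change z = S.e y (Γ 1)
      rw [hl]; exact γ.target.symm)
    refine (Eq.mp ?_ h3)
    congr 1
    · ext t
      exact hl t

lemma vec_inj {y z : M} {α β : Cl y z} (h : S.vec α = S.vec β) : α = β := by
  rw [S.eq_rayTo α, S.eq_rayTo β]
  congr 2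

lemma finite_fiber [FiniteDimensional ℝ E] [T2Space M] (y : M) (R : ℝ) :
    {v : E | S.e y v = y ∧ S.ip y v v ≤ R}.Finite := by
  have hK := isCompact_form (S.ip y) (S.ip_pos y) R
  have hF : IsClosed (S.e y ⁻¹' {y}) := isClosed_singleton.preimage (S.cov y).continuous
  have hD : DiscreteTopology (S.e y ⁻¹' {y}) := (S.cov y y).discreteTopology_fiber
  have hKF := hK.inter_right hF
  have hfin := hKF.finite ⟨DiscreteTopology.of_subset hD inter_subset_right⟩
  exact hfin.subset fun v hv => ⟨hv.2, hv.1⟩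

/-- the exponential map on homotopy classes -/
def ex {m₀ : M} (x : PX m₀) (v : E) : PX m₀ :=
  ⟨S.e x.1 v, (Path.Homotopic.Quotient.mk (S.rayTo x.1 (S.e x.1 v) v rfl)).symm.trans x.2⟩

lemma ex_eq {m₀ : M} (x : PX m₀) (v : E) (z : M) (h : S.e x.1 v = z) (ζ : Cl z m₀)
    (hζ : (Path.Homotopic.Quotient.mk (S.rayTo x.1 z v h)).symm.trans x.2 = ζ) :
    S.ex x v = ⟨z, ζ⟩ := by
  subst h
  rw [← hζ]
  rfl

open Path.Homotopic.Quotient in
lemma ex_vec {m₀ : M} (x y : PX m₀) : S.ex x (S.vec (x.2.trans y.2.symm)) = y := by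
  refine S.ex_eq x _ y.1 (S.e_vec _) y.2 ?_
  rw [← S.eq_rayTo, symm_trans', symm_symm', trans_assoc, symm_trans, trans_refl]

open Path.Homotopic.Quotient in
/-- the structure on the space of homotopy classes -/
def geoAct (m₀ : M) : GeoAct (FundamentalGroup M m₀) (PX m₀) E where
  ex := S.ex
  lg x y := S.vec (x.2.trans y.2.symm)
  ip x := S.ip x.1
  ip_symm x := S.ip_symm x.1
  ip_pos x := S.ip_pos x.1
  ex_lg := S.ex_vec
  lg_ex x v := by
    unfold ex
    simp only
    rw [symm_trans', symm_symm', ← trans_assoc, trans_symm, refl_trans, S.vec_rayTo]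
  ex_zero x := by
    have h := S.ex_vec x x
    rwa [trans_symm, S.vec_refl] at h
  ip_inv _ _ := rfl
  ex_inv g x v := Sigma.ext rfl (heq_of_eq (trans_assoc
    (Path.Homotopic.Quotient.mk (S.rayTo x.1 (S.e x.1 v) v rfl)).symm x.2 g))
  shift x u s := by
    obtain ⟨w, h1, h2⟩ := S.shift x.1 u s
    refine ⟨w, h1, fun t => ?_⟩
    refine S.ex_eq x _ _ (h2 t) _ ?_
    have e : Path.Homotopic.Quotient.mk (S.rayTo x.1 _ ((s + t) • u) (h2 t)) =
        (Path.Homotopic.Quotient.mk (S.rayTo x.1 (S.e x.1 (s • u)) (s • u) rfl)).trans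
          (Path.Homotopic.Quotient.mk (S.rayTo (S.e x.1 (s • u)) _ (t • w) rfl)) := by
      apply S.vec_inj
      rw [S.vec_rayTo, S.vec_trans _ _ ⟨fun τ : I => (s + (τ : ℝ) * t) • u, by fun_prop⟩
        (by simp [S.vec_rayTo]) (by
          intro τ
          simp only [ContinuousMap.coe_mk, rayTo_apply]
          rw [h2, smul_smul])]
      simp
    rw [e, symm_trans', trans_assoc]
    rfl
  cmp p q r w hw := by
    set μ : Cl r.1 p.1 := r.2.trans p.2.symm with hμ
    set β : Cl p.1 q.1 := p.2.trans q.2.symm with hβ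
    have hc := (S.cov p.1).continuous
    obtain ⟨c, ⟨c0, c1⟩, -⟩ := (S.cov r.1).existsUnique_continuousMap_lifts
      (⟨fun t : ℝ => S.e p.1 (t • S.vec β), by fun_prop⟩ : C(ℝ, M)) 0 (S.vec μ) (by
        simp [S.e_vec, S.zero])
    have c2 : ∀ t, S.e r.1 (c t) = S.e p.1 (t • S.vec β) := fun t => congrFun c1 t
    have c3 : S.vec (r.2.trans q.2.symm) = c 1 := by
      rw [← cancel_mid r.2 p.2, ← hμ, ← hβ]
      conv_lhs => rw [S.eq_rayTo β]
      exact S.vec_trans μ _ ⟨fun t : I => c t, by fun_prop⟩ c0 fun t => c2 t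
    have h := S.cmp r.1 p.1 (S.vec β) w c c.continuous c2 (fun t => by
      rw [c0]; exact congrArg Sigma.fst (hw t))
    rw [c0, ← c3] at h
    exact h

open Path.Homotopic.Quotient in
lemma exists_smul {m₀ : M} (x y : PX m₀) (h : x.1 = y.1) :
    ∃ g : FundamentalGroup M m₀, g • x = y := by
  obtain ⟨a, α⟩ := x
  obtain ⟨b, β⟩ := y
  simp only at h
  subst h
  refine ⟨(α.symm.trans β : Cl m₀ m₀), Sigma.ext rfl (heq_of_eq ?_)⟩
  change α.trans (α.symm.trans β) = β
  rw [← trans_assoc, trans_symm, refl_trans]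

theorem cocompact [CompactSpace M] (m₀ : M) (x : ℕ → PX m₀) :
    ∃ (g : ℕ → FundamentalGroup M m₀) (y : PX m₀) (φ : ℕ → ℕ), StrictMono φ ∧
      Tendsto (fun n => (S.geoAct m₀).d (g n • x (φ n)) y) atTop (𝓝 0) := by
  obtain ⟨y, hy⟩ : ∃ y, MapClusterPt y atTop (fun n => (x n).1) :=
    exists_clusterPt_of_compactSpace _
  have hU : ∀ n : ℕ, ∃ᶠ k in atTop, ∃ u : E, S.e y u = (x k).1 ∧
      Real.sqrt (S.ip y u u) < 1 / ((n : ℝ) + 1) := by
    intro n
    have hpos : (0 : ℝ) < 1 / ((n : ℝ) + 1) := by positivity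
    have hcont : Continuous fun v : E => Real.sqrt (S.ip y v v) := by fun_prop
    have him := (S.cov y).isOpenMap _ (isOpen_lt hcont (continuous_const (y := 1 / ((n : ℝ) + 1))))
    have := hy.frequently (him.mem_nhds ⟨0, by simpa using hpos, S.zero y⟩)
    refine this.mono fun k hk => ?_
    obtain ⟨u, hu, hu2⟩ := hk
    exact ⟨u, hu2, hu⟩
  obtain ⟨φ, hφ, hφ2⟩ := extraction_forall_of_frequently hU
  choose u hu hu2 using hφ2
  let Y : PX m₀ :=
    ⟨y, (Path.Homotopic.Quotient.mk (S.rayTo y _ (u 0) (hu 0))).trans (x (φ 0)).2⟩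
  choose g hg using fun n => exists_smul (x (φ n)) (S.ex Y (u n)) (hu n).symm
  refine ⟨g, Y, φ, hφ, ?_⟩
  refine squeeze_zero (fun n => (S.geoAct m₀).d_nonneg _ _) (fun n => ?_)
    tendsto_one_div_add_atTop_nhds_zero_nat
  have h := (S.geoAct m₀).d_ex Y (u n) 1 zero_le_one
  rw [one_smul, one_mul] at h
  rw [hg, (S.geoAct m₀).d_symm]
  exact (le_of_eq h).trans (hu2 n).le

open Path.Homotopic.Quotient in
lemma smul_inj {m₀ : M} (y : PX m₀) {g g' : FundamentalGroup M m₀} (h : g • y = g' • y) :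
    g = g' := by
  have h1 : y.2.trans g = y.2.trans g' := eq_of_heq (Sigma.ext_iff.1 h).2
  have h4 := congrArg (fun α : Cl y.1 m₀ => (y.2.symm.trans α)) h1
  simp only [← trans_assoc, symm_trans, refl_trans] at h4
  exact h4

theorem proper [FiniteDimensional ℝ E] [T2Space M] (m₀ : M) (y : PX m₀) (R : ℝ) :
    {g : FundamentalGroup M m₀ | (S.geoAct m₀).d y (g • y) ≤ R}.Finite := by
  have hfin := S.finite_fiber y.1 (R ^ 2)
  let f : FundamentalGroup M m₀ → E := fun g => (S.geoAct m₀).lg y (g • y)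
  have hinj : Function.Injective f := by
    intro g g' h
    apply smul_inj y
    rw [← (S.geoAct m₀).ex_lg y (g • y), ← (S.geoAct m₀).ex_lg y (g' • y)]
    exact congrArg _ h
  refine Set.Finite.subset (hfin.preimage hinj.injOn) ?_
  intro g hg
  refine ⟨S.e_vec _, ?_⟩
  have h1 := pow_le_pow_left₀ ((S.geoAct m₀).d_nonneg _ _) hg 2
  rw [(S.geoAct m₀).d_sq] at h1
  exact h1

include S in
theorem exists_pairing [FiniteDimensional ℝ E] [CompactSpace M] [T2Space M] (m₀ : M) :
    ∃ Q : FundamentalGroup M m₀ → FundamentalGroup M m₀ → ℝ, IsPairing Q := by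
  have : Nonempty (PX m₀) := ⟨⟨m₀, Path.Homotopic.Quotient.refl m₀⟩⟩
  exact (S.geoAct m₀).exists_pairing (GeoAct.exists_min (S.cocompact m₀) (S.proper m₀))
    fun g p h => smul_inj p (h.trans (one_smul _ p).symm)

end FSys

end Vale.Agent.N255
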