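import Vale.Agent.N255.Cover

/-!
# P255, no focal points: convexity of the radial distance, and the obstruction
-/

open scoped Manifold ContDiff Topology
open Set Filter

set_option maxSynthPendingDepth 3

noncomputable section

namespace Vale.Agent.N255

open Vale.Agent.P255

/-- the real variable lemma: `√ρ` is convex -/
theorem sqrt_convex {ρ P P' : ℝ → ℝ} (h1 : ∀ s, HasDerivAt ρ (2 * P s) s)
    (h2 : ∀ s, HasDerivAt P (P' s) s) (h0 : ∀ s, 0 ≤ ρ s) (h3 : ∀ s, 0 ≤ P' s)
    (h4 : ∀ s, P s ^ 2 ≤ ρ s * P' s) :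
    ρ 0 + P 0 ≤ Real.sqrt (ρ 0) * Real.sqrt (ρ 1) := by
  have key : ∀ ε : ℝ, 0 < ε →
      ρ 0 + ε + P 0 ≤ Real.sqrt (ρ 0 + ε) * Real.sqrt (ρ 1 + ε) := by
    intro ε hε
    have hp : ∀ s, 0 < ρ s + ε := fun s => by linarith [h0 s]
    have hr : ∀ s, 0 < Real.sqrt (ρ s + ε) := fun s => Real.sqrt_pos.2 (hp s)
    have d1 : ∀ s, HasDerivAt (fun s => Real.sqrt (ρ s + ε)) (P s / Real.sqrt (ρ s + ε)) s := by
      intro s
      refine (((h1 s).add_const ε).sqrt (hp s).ne').congr_deriv ?_
      field_simp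
    have d2 : ∀ s, HasDerivAt (fun s => P s / Real.sqrt (ρ s + ε))
        ((P' s * Real.sqrt (ρ s + ε) - P s * (P s / Real.sqrt (ρ s + ε))) /
          Real.sqrt (ρ s + ε) ^ 2) s := fun s => (h2 s).div (d1 s) (hr s).ne'
    have mono : Monotone fun s => P s / Real.sqrt (ρ s + ε) := by
      refine monotone_of_deriv_nonneg (fun s => (d2 s).differentiableAt) fun s => ?_
      rw [(d2 s).deriv]
      refine div_nonneg ?_ (sq_nonneg _)
      rw [sub_nonneg, ← mul_div_assoc, div_le_iff₀ (hr s), mul_assoc,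
        Real.mul_self_sqrt (hp s).le]
      nlinarith [h4 s, mul_nonneg (h3 s) hε.le]
    obtain ⟨ξ, hξ, h5⟩ := exists_hasDerivAt_eq_slope (fun s => Real.sqrt (ρ s + ε)) _ zero_lt_one
      (fun s _ => (d1 s).continuousAt.continuousWithinAt) (fun s _ => d1 s)
    have h6 := mono hξ.1.le
    simp only at h6
    rw [h5, sub_zero, div_one, div_le_iff₀ (hr 0), sub_mul, Real.mul_self_sqrt (hp 0).le] at h6
    linarith
  have t1 : Tendsto (fun ε : ℝ => ρ 0 + ε + P 0) (𝓝[>] 0) (𝓝 (ρ 0 + 0 + P 0)) :=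
    (Continuous.tendsto (by fun_prop) 0).mono_left nhdsWithin_le_nhds
  have t2 : Tendsto (fun ε : ℝ => Real.sqrt (ρ 0 + ε) * Real.sqrt (ρ 1 + ε)) (𝓝[>] 0)
      (𝓝 (Real.sqrt (ρ 0 + 0) * Real.sqrt (ρ 1 + 0))) :=
    (Continuous.tendsto (by fun_prop) 0).mono_left nhdsWithin_le_nhds
  have := le_of_tendsto_of_tendsto t1 t2 (eventually_nhdsWithin_of_forall key)
  simpa using this

variable {E : Type} [NormedAddCommGroup E] [NormedSpace ℝ E] [FiniteDimensional ℝ E]
variable {M : Type} [TopologicalSpace M] [ChartedSpace E M] [IsManifold 𝓘(ℝ, E) ∞ M]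

/-- no focal points, for the working definitions -/
def NoFocal (g : Metric E M) : Prop :=
  ∀ (γ : ℝ → M) (J : M → ℝ → E), IsGeodesic g γ → IsJacobi g γ J →
    (∀ t, prodF g γ (vel γ) (vel γ) t = 1) → J (γ 0) 0 = 0 →
    (∀ t, prodF g γ J (vel γ) t = 0) → (∃ t, J (γ t) t ≠ 0) →
    ∀ s, 0 < s → 0 < deriv (prodF g γ J J) s

/-- the square of the norm of `d exp_m (v) w` -/
def NN (g : Metric E M) (e : M → E → M) (m : M) (v w : E) : ℝ :=
  g.coef (e m v) (chartAt E (e m v) (e m v))
    (fderiv ℝ (fun x => chartAt E (e m v) (e m x)) v w)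
    (fderiv ℝ (fun x => chartAt E (e m v) (e m x)) v w)

variable {g : Metric E M} {e : M → E → M}

omit [IsManifold 𝓘(ℝ, E) ∞ M] in
theorem NN_eq (he : IsExp g e) (m : M) (v w : E) {a : M} (ha : e m v ∈ (chartAt E a).source) :
    NN g e m v w = g.coef a (chartAt E a (e m v)) (fderiv ℝ (fun x => chartAt E a (e m x)) v w)
      (fderiv ℝ (fun x => chartAt E a (e m x)) v w) := by
  have hJ := he.jac m v w
  have h := prodF_eq g hJ.compat' hJ.compat' (a := a) (t := 1) (by simpa using ha)
  simpa only [prodF, cc, one_smul, NN] using h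

omit [FiniteDimensional ℝ E] [IsManifold 𝓘(ℝ, E) ∞ M] in
theorem NN_nonneg (m : M) (v w : E) : 0 ≤ NN g e m v w :=
  (g.isMetricOn' _).nonneg (mem_chart_target E _) _

omit [IsManifold 𝓘(ℝ, E) ∞ M] in
theorem NN_zero (he : IsExp g e) (m : M) (w : E) : NN g e m 0 w = g.ip m w w := by
  have hm : e m 0 ∈ (chartAt E m).source := by rw [he.zero]; exact mem_chart_source E m
  have h1 := he.hasDerivAt_ray' m w 0 m (by rwa [zero_smul])
  have h2 := h1.unique (he.init m w)
  rw [zero_smul] at h2
  rw [NN_eq he m 0 w hm, h2, he.zero]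
  rfl

omit [IsManifold 𝓘(ℝ, E) ∞ M] in
theorem NN_diff (he : IsExp g e) (m : M) (v w : E) :
    Differentiable ℝ fun t : ℝ => NN g e m (t • v) (t • w) := fun _ =>
  ((he.jac m v w).deriv_sq (he.geod m v) (mem_chart_source E _)).1.differentiableAt

theorem focal_unit (he : IsExp g e) (hg : NoFocal g) (m : M) {u w : E} (hu : g.ip m u u = 1)
    (huw : g.ip m u w = 0) (hw : w ≠ 0) {s : ℝ} (hs : 0 < s) :
    0 < deriv (fun t : ℝ => NN g e m (t • u) (t • w)) s := by
  have hgeo := he.geod m u
  have hJ := he.jac m u w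
  have hm0 : e m ((0 : ℝ) • u) ∈ (chartAt E m).source := by
    rw [zero_smul, he.zero]; exact mem_chart_source E m
  refine hg _ _ hgeo hJ (fun t => ?_) (by simp) (fun t => ?_) ?_ s hs
  · rcases eq_or_ne t 0 with rfl | ht
    · rw [prodF_eq g hgeo.vel_compat hgeo.vel_compat hm0]
      have hv0 : vel (fun t : ℝ => e m (t • u)) m 0 = u := (he.init m u).deriv
      rw [hv0, ← hu]
      simp only [cc, zero_smul, he.zero]
      rfl
    · unfold prodF
      rw [he.vel_ray m u (mem_chart_source E _), ← hu]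
      exact speed_of_gaussAt (he.gaussAt m) u t _ (mem_chart_source E _) ht
  · rcases eq_or_ne t 0 with rfl | ht
    · simp [prodF]
    · unfold prodF
      rw [he.vel_ray m u (mem_chart_source E _)]
      refine ((g.isMetricOn' _).symm _ (mem_chart_target E (e m (t • u))) _ _).trans ?_
      have h := he.gauss m (t • u) (t • w) _ (mem_chart_source E _)
      rw [map_smul (fderiv ℝ _ (t • u)) t u, map_smul (g.ip m) t u, map_smul, smul_apply,
        smul_apply, map_smul (g.ip m u), huw] at h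
      simp only [smul_eq_mul, mul_zero] at h
      exact (mul_eq_zero.1 h).resolve_left ht
  · by_contra hz
    push Not at hz
    apply hw
    have h2 : (fun t : ℝ => fderiv ℝ (fun x => chartAt E m (e m x)) (t • u) (t • w)) =ᶠ[𝓝 0]
        fun _ => 0 := by
      filter_upwards [eventually_mem_source hgeo.continuous.continuousAt hm0] with t ht
      rw [hJ.compat _ m t (mem_chart_source E _) ht, hz t, map_zero]
    rw [← (he.jac_init m u w).deriv, h2.deriv_eq]
    simp

theorem decomp (he : IsExp g e) (m : M) {v : E} (hv : v ≠ 0) (w : E) :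
    ∃ (ν l : ℝ) (u w' : E), 0 < ν ∧ g.ip m u u = 1 ∧ g.ip m u w' = 0 ∧
      l * g.ip m v v = g.ip m v w ∧ w = l • v + ν • w' ∧ ∀ t : ℝ,
      NN g e m (t • v) (t • w) = t ^ 2 * (l ^ 2 * g.ip m v v) +
        NN g e m ((ν * t) • u) ((ν * t) • w') := by
  have hp := g.ip_pos m v hv
  set ν := Real.sqrt (g.ip m v v) with hν
  have hν0 : 0 < ν := Real.sqrt_pos.2 hp
  have hν2 : ν * ν = g.ip m v v := Real.mul_self_sqrt hp.le
  set l := g.ip m v w / g.ip m v v with hl
  have hl2 : l * g.ip m v v = g.ip m v w := div_mul_cancel₀ _ hp.ne'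
  have h0 : g.ip m v (w - l • v) = 0 := by
    rw [map_sub, map_smul, smul_eq_mul, hl2, sub_self]
  refine ⟨ν, l, ν⁻¹ • v, ν⁻¹ • (w - l • v), hν0, ?_, ?_, hl2, ?_, fun t => ?_⟩
  · simp only [map_smul, smul_apply, smul_eq_mul]
    rw [← hν2]
    field_simp
  · simp only [map_smul, smul_apply, smul_eq_mul, h0, mul_zero]
  · rw [smul_smul, mul_inv_cancel₀ hν0.ne', one_smul]
    abel
  · have e1 : ∀ x : E, (ν * t) • ν⁻¹ • x = t • x := fun x => by
      rw [smul_smul]
      congr 1
      field_simp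
    rw [e1, e1]
    have e2 : t • w = l • t • v + t • (w - l • v) := by module
    have g1 := he.gauss m (t • v) (t • v) _ (mem_chart_source E _)
    have g2 := he.gauss m (t • v) (t • (w - l • v)) _ (mem_chart_source E _)
    have g3 : g.ip m (t • v) (t • (w - l • v)) = 0 := by
      simp only [map_smul, smul_apply, smul_eq_mul, h0, mul_zero]
    have g4 : g.ip m (t • v) (t • v) = t ^ 2 * g.ip m v v := by
      simp only [map_smul, smul_apply, smul_eq_mul]
      ring
    rw [g3] at g2
    rw [g4] at g1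
    rw [e2]
    unfold NN
    generalize t • (w - l • v) = W at g2 ⊢
    generalize t • v = V at g1 g2 ⊢
    rw [map_add, map_smul]
    simp only [map_add, map_smul, add_apply, smul_apply, smul_eq_mul]
    rw [(g.isMetricOn' _).symm _ (mem_chart_target E _)
      (fderiv ℝ (fun x => chartAt E (e m V) (e m x)) V W), g1, g2]
    ring

theorem injAt_of (he : IsExp g e) (hg : NoFocal g) (m : M) : InjAt E e m := by
  intro v w a ha h
  have h0 : NN g e m v w = 0 := by rw [NN_eq he m v w ha, h, map_zero]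
  by_contra hw
  rcases eq_or_ne v 0 with rfl | hv
  · rw [NN_zero he] at h0
    exact (g.ip_pos m w hw).ne' h0
  obtain ⟨ν, l, u, w', hν, h1, h2, -, h4, h5⟩ := decomp he m hv w
  have h6 := h5 1
  rw [one_smul, one_smul, h0, mul_one, one_pow, one_mul] at h6
  have hp := g.ip_pos m v hv
  have h7 := NN_nonneg (g := g) (e := e) m (ν • u) (ν • w')
  have h8 : 0 ≤ l ^ 2 * g.ip m v v := by positivity
  have hl : l = 0 := by
    have : l ^ 2 * g.ip m v v = 0 := by linarith
    simpa [hp.ne'] using this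
  have hw' : w' ≠ 0 := by
    rintro rfl
    exact hw (by rw [h4, hl]; simp)
  have mono : StrictMonoOn (fun t : ℝ => NN g e m (t • u) (t • w')) (Ici 0) := by
    refine strictMonoOn_of_deriv_pos (convex_Ici 0) (NN_diff he m u w').continuous.continuousOn ?_
    intro s hs
    rw [interior_Ici] at hs
    exact focal_unit he hg m h1 h2 hw' hs
  have h9 := mono (mem_Ici.2 le_rfl) (mem_Ici.2 hν.le) hν
  have h10 := NN_nonneg (g := g) (e := e) m ((0 : ℝ) • u) ((0 : ℝ) • w')
  simp only at h9
  linarith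

theorem second_var (he : IsExp g e) (hg : NoFocal g) (m : M) (v w : E) :
    0 ≤ deriv (fun t : ℝ => NN g e m (t • v) (t • w)) 1 ∧
    2 * g.ip m v w ^ 2 ≤ g.ip m v v * deriv (fun t : ℝ => NN g e m (t • v) (t • w)) 1 := by
  rcases eq_or_ne v 0 with rfl | hv
  · refine ⟨?_, by simp⟩
    have e1 : (fun t : ℝ => NN g e m (t • (0 : E)) (t • w)) = fun t => t ^ 2 * g.ip m w w := by
      funext t
      rw [smul_zero, NN_zero he]
      simp only [map_smul, smul_apply, smul_eq_mul]
      ring
    rw [e1, ((hasDerivAt_pow 2 (1 : ℝ)).mul_const _).deriv]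
    have := nonneg_of_pos (g.ip_pos m) w
    positivity
  obtain ⟨ν, l, u, w', hν, h1, h2, h3, -, h5⟩ := decomp he m hv w
  have hp := g.ip_pos m v hv
  have h6 : 0 ≤ deriv (fun t : ℝ => NN g e m (t • u) (t • w')) ν := by
    rcases eq_or_ne w' 0 with rfl | hw'
    · simp [NN]
    · exact (focal_unit he hg m h1 h2 hw' hν).le
  have d1 : HasDerivAt (fun t : ℝ => NN g e m ((ν * t) • u) ((ν * t) • w'))
      (deriv (fun t : ℝ => NN g e m (t • u) (t • w')) ν * ν) 1 := by
    have d2 : HasDerivAt (fun t : ℝ => NN g e m (t • u) (t • w'))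
        (deriv (fun t : ℝ => NN g e m (t • u) (t • w')) ν) (ν * 1) := by
      rw [mul_one]; exact (NN_diff he m u w' ν).hasDerivAt
    have d4 := d2.comp 1 ((hasDerivAt_id (1 : ℝ)).const_mul ν)
    simp only [mul_one] at d4
    exact d4
  have d3 := (((hasDerivAt_pow 2 (1 : ℝ)).mul_const (l ^ 2 * g.ip m v v)).add d1).deriv
  have e1 : (fun t : ℝ => NN g e m (t • v) (t • w)) =
      ((fun t : ℝ => t ^ 2 * (l ^ 2 * g.ip m v v)) +
        fun t : ℝ => NN g e m ((ν * t) • u) ((ν * t) • w')) := funext h5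
  rw [e1, d3, ← h3]
  have h7 := mul_nonneg h6 hν.le
  constructor
  · positivity
  · have := mul_nonneg hp.le h7
    norm_num
    nlinarith

variable [CompactSpace M] [T2Space M]

theorem deriv_jac (g : Metric E M) (m : M) (v w : E) (a : M)
    (ha : expg g m v ∈ (chartAt E a).source) :
    deriv (fun t : ℝ => fderiv ℝ (fun x => chartAt E a (expg g m x)) (t • v) (t • w)) 1 =
      (var g m v w a 1).2 := by
  have h1 := hasDerivAt_var g m v w a 1 ha
  have h2 := (g.isMetricOn a).fderiv_geoField (u := cc (geo g m v) a 1)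
    (v := deriv (cc (geo g m v) a) 1) (cc_mem_target ha) (var g m v w a 1).1 (var g m v w a 1).2
  have h5 : fderiv ℝ (geoField (g.coef a)) (st g m a (1, v)) (var g m v w a 1)
      = fderiv ℝ (geoField (g.coef a)) (cc (geo g m v) a 1, deriv (cc (geo g m v) a) 1)
        ((var g m v w a 1).1, (var g m v w a 1).2) := rfl
  have h3 := (hasFDerivAt_fst (p := var g m v w a 1)).comp_hasDerivAt (1 : ℝ) h1
  rw [h5, h2] at h3
  refine (h3.congr_of_eventuallyEq ?_).deriv
  filter_upwards [evSource' ((isGeodesic_geo g m v).continuousAt 1) ha] with s hs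
  exact fderiv_expg g m v w a s hs

theorem radial_eq (g : Metric E M) (m : M) (v : E) (a : M)
    (ha : expg g m v ∈ (chartAt E a).source) :
    fderiv ℝ (fun x => chartAt E a (expg g m x)) v v = (st g m a (1, v)).2 := by
  have h := (isExp_expg g).vel_ray m v (a := a) (t := 1) (by rwa [one_smul])
  rw [expg_smul_fun, one_smul] at h
  exact h.symm

theorem cmp_of (hg : NoFocal g) (m q : M) (w w₁ : E) (c : ℝ → E) (hc : Continuous c)
    (h : ∀ t : ℝ, expg g m (c t) = expg g q (t • w))
    (h₁ : ∀ t : ℝ, expg g m ((1 + t) • c 0) = expg g q (t • w₁)) :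
    g.ip m (c 0) (c 0) + g.ip q w w₁ ≤
      Real.sqrt (g.ip m (c 0) (c 0)) * Real.sqrt (g.ip m (c 1) (c 1)) := by
  have he := isExp_expg g
  set σ : ℝ → M := fun t => expg g q (t • w) with hσ
  have hgeo : IsGeodesic g σ := he.geod q w
  set T : M → ℝ → E := fun a s => fderiv ℝ (fun x => chartAt E a (expg g m x)) (c s) (c s) with hT
  have hsrc : ∀ {a s}, σ s ∈ (chartAt E a).source → expg g m (c s) ∈ (chartAt E a).source :=
    fun ha => by rw [h]; exact ha
  have hcc : ∀ a s, chartAt E a (expg g m (c s)) = cc σ a s := fun a s => by rw [h]; rfl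
  have hTc : Compat σ T := by
    intro a b s ha hb
    rw [← hcc]
    exact fderiv_expg_trans g m (c s) a b (hsrc ha) (hsrc hb) (c s)
  have main : ∀ s, HasDerivAt (fun s => g.ip m (c s) (c s)) (2 * prodF g σ T (vel σ) s) s ∧
      ∃ P', HasDerivAt (prodF g σ T (vel σ)) P' s ∧ 0 ≤ P' ∧
        prodF g σ T (vel σ) s ^ 2 ≤ g.ip m (c s) (c s) * P' := by
    intro s
    have ha := mem_chart_source E (σ s)
    set a := σ s with hadef
    have hσd := hgeo.eqn a s (mem_univ _) ha
    obtain ⟨c', hc', hc''⟩ := hasDerivAt_lift (he.smooth m (c s) a (hsrc ha))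
      (fun z hz => injAt_of he hg m (c s) z a (hsrc ha) hz) hc.continuousAt
      (x := cc σ a) (Eventually.of_forall (hcc a)) hσd.1.hasDerivAt
    have hP : prodF g σ T (vel σ) s = g.ip m (c s) c' := by
      rw [← he.gauss m (c s) c' a (hsrc ha), hc'', hcc]
      rfl
    have hTd : HasDerivAt (T a) (var g m (c s) c' a 1).2 s := by
      have d1 := ((contDiffAt_st g m (c s) a 1 (hsrc ha)).differentiableAt
        (by simp)).hasFDerivAt.comp_hasDerivAt s hc'
      refine ((hasFDerivAt_snd (p := st g m a (1, c s))).comp_hasDerivAt s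
        d1).congr_of_eventuallyEq ?_
      filter_upwards [eventually_mem_source hgeo.continuous.continuousAt ha] with r hr
      exact radial_eq g m (c r) a (hsrc hr)
    have ha1 : expg g m ((1 : ℝ) • c s) ∈ (chartAt E a).source := by
      rw [one_smul]; exact hsrc ha
    have hd := ((he.jac m (c s) c').deriv_sq (he.geod m (c s)) ha1).1.deriv
    have hv := he.vel_ray m (c s) ha1
    obtain ⟨s1, s2⟩ := second_var he hg m (c s) c'
    have e0 : (fun t : ℝ => NN g (expg g) m (t • c s) (t • c')) =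
        prodF g (fun t : ℝ => expg g m (t • c s))
          (fun a t => fderiv ℝ (fun x => chartAt E a (expg g m x)) (t • c s) (t • c'))
          (fun a t => fderiv ℝ (fun x => chartAt E a (expg g m x)) (t • c s) (t • c')) := rfl
    rw [e0, hd] at s1 s2
    have e1 : cc (E := E) (fun t : ℝ => expg g m (t • c s)) a 1 = cc σ a s := by
      rw [← hcc]; simp only [cc, one_smul]
    have e2 : covD (g.coef a) (cc (fun t : ℝ => expg g m (t • c s)) a)
        (fun t : ℝ => fderiv ℝ (fun x => chartAt E a (expg g m x)) (t • c s) (t • c')) 1 =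
        covD (g.coef a) (cc σ a) (T a) s := by
      unfold covD
      unfold vel at hv
      rw [deriv_jac g m (c s) c' a (hsrc ha), hTd.deriv, hv, e1]
      simp only [one_smul]
      rw [hc'', (g.isMetricOn' a).chris_symm (cc_mem (γ := σ) (t := s) ha)]
    rw [e2, e1, one_smul, one_smul, hc''] at s1 s2
    have d2 := hasDerivAt_prodF g hgeo.continuous hTc hgeo.vel_compat ha hσd.1
      hTd.differentiableAt hσd.2.1
    rw [hgeo.covD_vel ha, map_zero, add_zero] at d2
    refine ⟨?_, _, d2, ?_, ?_⟩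
    · have d3 := ((g.ip m).hasFDerivAt.comp_hasDerivAt s hc').clm_apply hc'
      refine d3.congr_deriv ?_
      rw [hP]
      simp only [Function.comp_apply]
      rw [g.ip_symm m c']
      ring
    · unfold vel
      linarith
    · unfold vel at hP ⊢
      rw [hP]
      linarith
  choose m1 P' m2 m3 m4 using main
  have key := sqrt_convex m1 m2 (fun s => nonneg_of_pos (g.ip_pos m) _) m3 m4
  have hq : σ 0 = q := by simp only [hσ, zero_smul, he.zero]
  have hq0 : σ 0 ∈ (chartAt E q).source := by rw [hq]; exact mem_chart_source E q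
  have e3 : vel σ q 0 = w := (he.init q w).deriv
  have e4 : T q 0 = w₁ := by
    have d1 := he.hasDerivAt_ray' m (c 0) 1 q (by rw [one_smul]; exact hsrc hq0)
    have d2 : HasDerivAt (fun t : ℝ => chartAt E q (expg g m ((1 + t) • c 0)))
        (fderiv ℝ (fun x => chartAt E q (expg g m x)) ((1 : ℝ) • c 0) (c 0)) 0 :=
      HasDerivAt.comp_const_add (f := fun t : ℝ => chartAt E q (expg g m (t • c 0))) 1 0
        (by rwa [add_zero])
    simp only [h₁, one_smul] at d2
    exact d2.unique (he.init q w₁)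
  rw [prodF_eq g hTc hgeo.vel_compat hq0, e3, e4] at key
  have e5 : g.coef q (cc σ q 0) = g.ip q := by unfold cc; rw [hq]; rfl
  rwa [e5, g.ip_symm q w₁] at key

theorem pairing_of_noFocal (hg : NoFocal g) (m₀ : M) :
    ∃ Q : FundamentalGroup M m₀ → FundamentalGroup M m₀ → ℝ, IsPairing Q :=
  FSys.exists_pairing
    { e := expg g
      ip := g.ip
      ip_symm := g.ip_symm
      ip_pos := g.ip_pos
      zero := (isExp_expg g).zero
      cov := fun m => (isExp_expg g).isCoveringMap_of ((isExp_expg g).gaussAt m)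
        (injAt_of (isExp_expg g) hg m)
      shift := fun m u s => (isExp_expg g).shift_of ((isExp_expg g).gaussAt m) u s
      cmp := fun m q w w₁ c hc h h₁ => cmp_of hg m q w w₁ c hc h h₁ }
    m₀

end Vale.Agent.N255
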