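import Vale.Agent.N255.Bridge
import Vale.Agent.P255.H635.Main

/-!
# P255, no focal points: subgroups of finite index, and the main theorem
-/

open scoped Manifold ContDiff Topology
open Set Filter

set_option maxSynthPendingDepth 3

noncomputable section

namespace Vale.Agent.N255

open Vale.Agent.P255 Vale.Agent.P255.H370 Vale.Agent.P255.H443
open Vale.Agent.P255.H35.S (transfer_aux pw pw_commute)
open Vale.Agent.P255.H635 (Conf conf_of_carriesInf)

section Virtual

variable {Γ Δ : Type} [Group Γ] [Group Δ] {Q : Δ → Δ → ℝ}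
variable (K : Subgroup Γ) [K.Normal] (f : K →* Δ)

/-- the pairing of the conjugates -/
def GG (Q : Δ → Δ → ℝ) (t : Γ) (u v : K) : ℝ :=
  Q (f (MulAut.conjNormal t u)) (f (MulAut.conjNormal t v))

theorem GG_eq (h : IsPairing Q) {s t : Γ} (hst : (s : Γ ⧸ K) = t) {u v : K} (huv : Commute u v) :
    GG K f Q s u v = GG K f Q t u v := by
  have h1 : s * t⁻¹ ∈ K := by
    have h2 := QuotientGroup.eq.1 hst
    have h3 := ‹K.Normal›.conj_mem _ (K.inv_mem h2) s
    have h4 : s * (s⁻¹ * t)⁻¹ * s⁻¹ = s * t⁻¹ := by group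
    rwa [h4] at h3
  have e : ∀ w : K, MulAut.conjNormal s w =
      ⟨s * t⁻¹, h1⟩ * MulAut.conjNormal t w * (⟨s * t⁻¹, h1⟩ : K)⁻¹ := by
    intro w
    apply Subtype.ext
    simp only [MulAut.conjNormal_apply, Subgroup.coe_mul, Subgroup.coe_inv, mul_inv_rev]
    group
  unfold GG
  rw [e, e, map_mul, map_mul, map_mul, map_mul, map_inv,
    h.conj _ ((huv.map (MulAut.conjNormal t)).map f)]

/-- the sum of the pairings of the conjugates -/
def PP (Q : Δ → Δ → ℝ) (u v : K) : ℝ := ∑ᶠ q : Γ ⧸ K, GG K f Q q.out u v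

theorem PP_conj (h : IsPairing Q) (s : Γ) {u v : K} (huv : Commute u v) :
    PP K f Q (MulAut.conjNormal s u) (MulAut.conjNormal s v) = PP K f Q u v := by
  unfold PP
  have h1 : ∀ q : Γ ⧸ K, GG K f Q q.out (MulAut.conjNormal s u) (MulAut.conjNormal s v) =
      GG K f Q (q * (s : Γ ⧸ K)).out u v := by
    intro q
    have h2 : GG K f Q q.out (MulAut.conjNormal s u) (MulAut.conjNormal s v) =
        GG K f Q (q.out * s) u v := by
      unfold GG
      rw [map_mul]
      rfl
    rw [h2]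
    apply GG_eq K f h _ huv
    rw [QuotientGroup.out_eq', QuotientGroup.mk_mul, QuotientGroup.out_eq']
  simp only [h1]
  exact finsum_comp_equiv (Equiv.mulRight (s : Γ ⧸ K)) (f := fun q => GG K f Q q.out u v)

theorem PP_comm (h : IsPairing Q) {g u : K} (hu : Commute g u) : PP K f Q g u = PP K f Q u g :=
  finsum_congr fun q => h.comm ((hu.map (MulAut.conjNormal q.out)).map f)

variable [K.FiniteIndex]

theorem PP_mul (h : IsPairing Q) {g u : K} (v : K) (hu : Commute g u) :
    PP K f Q g (u * v) = PP K f Q g u + PP K f Q g v := by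
  unfold PP
  rw [← finsum_add_distrib (Set.toFinite _) (Set.toFinite _)]
  apply finsum_congr
  intro q
  unfold GG
  rw [map_mul, map_mul]
  exact h.mul ((hu.map (MulAut.conjNormal q.out)).map f)

theorem PP_self (h : IsPairing Q) (hf : Function.Injective f) {g : K}
    (hg : PP K f Q g g = 0) : g = 1 := by
  by_contra hne
  have : Fintype (Γ ⧸ K) := Fintype.ofFinite _
  unfold PP at hg
  rw [finsum_eq_sum_of_fintype] at hg
  refine (Finset.sum_pos (fun q _ => h.pos fun h1 => hne ?_) Finset.univ_nonempty).ne' hg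
  apply (MulAut.conjNormal q.out).injective
  rw [map_one]
  exact hf (h1.trans (map_one f).symm)

open scoped Classical in
theorem PP_comm_zero (h : IsPairing Q) {g a b : Γ} (ha : Commute g a) (hb : Commute g b) :
    PP K f Q (pw K g) (pw K (a * b * a⁻¹ * b⁻¹)) = 0 := by
  obtain ⟨Z, hZmem⟩ : ∃ Z : Subgroup Γ, ∀ x : Γ, x ∈ Z ↔ Commute g x := by
    refine ⟨Subgroup.centralizer ({g} : Set Γ), fun x => ?_⟩
    rw [Subgroup.mem_centralizer_singleton_iff]
    exact ⟨fun h => h.symm, fun h => h.symm⟩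
  set w := pw K g with hw
  let β : Z → ℝ := fun x => if hx : (x : Γ) ∈ K then PP K f Q w ⟨x, hx⟩ else 0
  have β_eq : ∀ (x : Z) (u : K), (x : Γ) = u → β x = PP K f Q w u := by
    intro x u hx
    have hx' : (x : Γ) ∈ K := hx ▸ u.2
    simp only [β]
    rw [dif_pos hx']
    congr 1
    exact Subtype.ext hx
  have hcomm : ∀ (x : Γ) (hx : x ∈ K), x ∈ Z → Commute w ⟨x, hx⟩ := fun x hx hxZ =>
    Subtype.ext (((hZmem x).1 hxZ).pow_left _).eq
  have k1 : ∀ u v : Z, u ∈ K.subgroupOf Z → v ∈ K.subgroupOf Z → β (u * v) = β u + β v := by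
    intro u v hu hv
    rw [Subgroup.mem_subgroupOf] at hu hv
    rw [β_eq u ⟨u, hu⟩ rfl, β_eq v ⟨v, hv⟩ rfl, β_eq (u * v) (⟨u, hu⟩ * ⟨v, hv⟩) rfl]
    exact PP_mul K f h _ (hcomm u _ u.2)
  have k2 : ∀ s u : Z, u ∈ K.subgroupOf Z → β (s * u * s⁻¹) = β u := by
    intro s u hu
    rw [Subgroup.mem_subgroupOf] at hu
    have h1 : Commute (s : Γ) (w : Γ) := (((hZmem s).1 s.2).symm).pow_right _
    have h2 : MulAut.conjNormal (s : Γ) w = w := by
      apply Subtype.ext
      rw [MulAut.conjNormal_apply, h1.eq, mul_inv_cancel_right]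
    have h4 := PP_conj K f h (s : Γ) (hcomm u hu u.2)
    rw [h2] at h4
    rw [β_eq u ⟨u, hu⟩ rfl,
      β_eq (s * u * s⁻¹) (MulAut.conjNormal (s : Γ) (⟨u, hu⟩ : K)) (by
        rw [MulAut.conjNormal_apply, Subgroup.coe_mul, Subgroup.coe_mul, Subgroup.coe_inv])]
    exact h4
  have e0 : (((⟨a, (hZmem a).2 ha⟩ * ⟨b, (hZmem b).2 hb⟩ * (⟨a, (hZmem a).2 ha⟩ : Z)⁻¹ *
      (⟨b, (hZmem b).2 hb⟩ : Z)⁻¹) ^ K.index : Z) : Γ) = (a * b * a⁻¹ * b⁻¹) ^ K.index := by
    rw [Subgroup.coe_pow, Subgroup.coe_mul, Subgroup.coe_mul, Subgroup.coe_mul, Subgroup.coe_inv,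
      Subgroup.coe_inv]
  have key := transfer_aux (K.subgroupOf Z) β k1 k2 ⟨a, (hZmem a).2 ha⟩
    ⟨b, (hZmem b).2 hb⟩ (n := K.index) (by
      rw [Subgroup.mem_subgroupOf, e0]
      exact K.pow_index_mem _)
  rw [β_eq _ (pw K (a * b * a⁻¹ * b⁻¹)) e0] at key
  exact key

theorem virt_normal (h : IsPairing Q) (hc : Conf Γ) : ¬ Function.Injective f := by
  intro hf
  obtain ⟨z, z', A₁, A₂, B₁, B₂, h1, h2, h3, h4, h5, h6, h7⟩ := hc
  have hzz : Commute z z' := by
    rw [← h3]
    exact ((h1.mul_right h2).mul_right h1.inv_right).mul_right h2.inv_right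
  have e1 := PP_comm_zero K f h h1 h2
  have e2 := PP_comm_zero K f h h4 h5
  rw [h3] at e1
  rw [h6] at e2
  have e3 : pw K z = pw K (z * z'⁻¹) * pw K z' := by
    apply Subtype.ext
    simp only [Subgroup.coe_mul, pw]
    rw [hzz.inv_right.mul_pow, inv_pow, inv_mul_cancel_right]
  have c1 : Commute (pw K z') (pw K (z * z'⁻¹)) :=
    pw_commute K (hzz.symm.mul_right (Commute.refl z').inv_right)
  rw [PP_comm K f h (pw_commute K hzz), e3, PP_mul K f h _ c1, e2, zero_add] at e1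
  exact h7 _ (Nat.pos_of_ne_zero Subgroup.FiniteIndex.index_ne_zero)
    (congrArg Subtype.val (PP_self K f h hf e1))

end Virtual

theorem virt {Γ : Type} [Group Γ] (hc : Conf Γ) (H : Subgroup Γ) (hH : H.FiniteIndex)
    {F : Type} [NormedAddCommGroup F] [NormedSpace ℝ F] [FiniteDimensional ℝ F]
    {N : Type} [TopologicalSpace N] [ChartedSpace F N] [IsManifold 𝓘(ℝ, F) ∞ N]
    [CompactSpace N] [T2Space N] (hN : AdmitsNoFocal F N) (p : N)
    (φ : H →* FundamentalGroup N p) : ¬ Function.Injective φ := by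
  intro hφ
  obtain ⟨k, hk⟩ := hN
  obtain ⟨k', hk'⟩ := exists_metric k
  obtain ⟨Q, hQ⟩ := pairing_of_noFocal
    ((noFocal_iff (fun a u _ v w => (hk' a u v w).symm)).1 hk) p
  exact virt_normal H.normalCore (φ.comp (Subgroup.inclusion H.normalCore_le)) hQ hc
    (hφ.comp (Subgroup.inclusion_injective _))

theorem main :
    (∀ n : ℕ, 3 ≤ n →
      ∃ (E : Type) (_ : NormedAddCommGroup E) (_ : NormedSpace ℝ E)
        (M : Type) (_ : TopologicalSpace M) (_ : ChartedSpace E M) (_ : IsManifold 𝓘(ℝ, E) ∞ M),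
        Module.finrank ℝ E = n ∧
        CompactSpace M ∧ T2Space M ∧ SecondCountableTopology M ∧ ConnectedSpace M ∧
        (AdmitsNoConj E M ∧ ¬ AdmitsNonpos E M) ∧
        ¬ AdmitsNoFocal E M ∧
        ∀ (F : Type) [NormedAddCommGroup F] [NormedSpace ℝ F] [FiniteDimensional ℝ F]
          (N : Type) [TopologicalSpace N] [ChartedSpace F N] [IsManifold 𝓘(ℝ, F) ∞ N]
          [CompactSpace N] [T2Space N] (p : N), AdmitsNoFocal F N →
          (∀ π : N → M, ¬ IsCoveringMap π) ∧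
          ∀ (m : M) (H : Subgroup (FundamentalGroup M m)), H.FiniteIndex →
            ∀ φ : H →* FundamentalGroup N p, ¬ Function.Injective φ) ∧
    ∀ (E : Type) [NormedAddCommGroup E] [NormedSpace ℝ E] [FiniteDimensional ℝ E]
      (M : Type) [TopologicalSpace M] [ChartedSpace E M] [IsManifold 𝓘(ℝ, E) ∞ M]
      (g : RMetric E M),
      (NonposCurvature g → NoFocalPoints g) ∧ (NoFocalPoints g → NoConjugatePoints g) := by
  refine ⟨fun n hn => ?_, ?_⟩
  · obtain ⟨E, i1, i2, M, i3, i4, i5, i6, h1, h2, h3, h4, h5⟩ := exists_carriesInf (n - 3)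
    have h5' := h5
    obtain ⟨⟨g, hg⟩, -⟩ := h5'
    have hconf := fun m : M => conf_of_carriesInf h5 m
    have hcov : ∀ (F : Type) [NormedAddCommGroup F] [NormedSpace ℝ F] [FiniteDimensional ℝ F]
        (N : Type) [TopologicalSpace N] [ChartedSpace F N] [IsManifold 𝓘(ℝ, F) ∞ N]
        [CompactSpace N] [T2Space N] (p : N), AdmitsNoFocal F N →
        ∀ π : N → M, ¬ IsCoveringMap π := by
      intro F _ _ _ N _ _ _ _ _ p hN π hπ
      have hinj := cov_injective ⟨π, hπ.continuous⟩ hπ p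
      exact virt (hconf _) _ (cov_finiteIndex ⟨π, hπ.continuous⟩ hπ p) hN p
        (MonoidHom.ofInjective hinj).symm.toMonoidHom (MonoidHom.ofInjective hinj).symm.injective
    refine ⟨E, i1, i2, M, i3, i4, i5, by omega, h2, h3, ?_, h4, ⟨?_, ?_⟩, ?_, ?_⟩
    · have : SecondCountableTopology E := secondCountable_of_proper
      exact ChartedSpace.secondCountable_of_sigmaCompact E M
    · obtain ⟨g', hg'⟩ := exists_rmetric g
      exact ⟨g', noConjugatePoints_of hg' hg⟩
    · rintro ⟨q1, hq1⟩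
      obtain ⟨q', hq'⟩ := exists_metric q1
      exact h5.carries.not_npc q' (npc_of hq' hq1)
    · intro hM
      obtain ⟨m⟩ : Nonempty M := inferInstance
      exact virt (hconf m) ⊤ inferInstance hM m (Subgroup.subtype ⊤) (Subgroup.subtype_injective ⊤)
    · intro F _ _ _ N _ _ _ _ _ p hN
      exact ⟨hcov F N p hN, fun m H hH φ => virt (hconf m) H hH hN p φ⟩
  · intro E _ _ _ M _ _ _ g
    obtain ⟨g', hg'⟩ := exists_metric g
    have h : ∀ a, ∀ u ∈ (chartAt E a).target, ∀ v w, coefIn g a u v w = g'.coef a u v w :=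
      fun a u _ v w => (hg' a u v w).symm
    exact ⟨fun hg => (noFocal_iff h).2 (noFocal_of_npc (npc_of hg' hg)),
      fun hg => noConjugatePoints_of h (noConj_of_noFocal ((noFocal_iff h).1 hg))⟩

end Vale.Agent.N255
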